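import Vale.Agent.P247I47.Defs

/-!
# P247: hyperkaehler metrics, K3 surfaces, four-torus
-/

open scoped Manifold ContDiff Bundle

namespace Vale.Agent.N247

open Vale.Agent.P247U

variable (E : Type) [NormedAddCommGroup E] [NormedSpace ℝ E]
variable (X : Type) [TopologicalSpace X] [ChartedSpace E X]

/-- Fields of endomorphisms of the tangent spaces. -/
abbrev Endo : Type := ∀ x : X, TangentSpace 𝓘(ℝ, E) x →L[ℝ] TangentSpace 𝓘(ℝ, E) x

/-- `X` is diffeomorphic to `C × C × C × C`, for a manifold `C` modelled on `F`. -/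
def DiffeoPow4 (F : Type) [NormedAddCommGroup F] [NormedSpace ℝ F] (C : Type)
    [TopologicalSpace C] [ChartedSpace F C] : Prop :=
  Nonempty (X ≃ₘ^∞⟮𝓘(ℝ, E), 𝓘(ℝ, F).prod (𝓘(ℝ, F).prod (𝓘(ℝ, F).prod 𝓘(ℝ, F)))⟯ C × C × C × C)

/-- `X` is diffeomorphic to the product of four circles. -/
def IsFourTorus : Prop := DiffeoPow4 E X (EuclideanSpace ℝ (Fin 1)) Circle

variable [IsManifold 𝓘(ℝ, E) ∞ X]

/-- Smooth Riemannian metrics on `X`. -/
abbrev Metric : Type :=
  Bundle.ContMDiffRiemannianMetric 𝓘(ℝ, E) ∞ E fun x : X => TangentSpace 𝓘(ℝ, E) x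

/-- Connections on the tangent bundle. -/
abbrev Connection : Type := CovariantDerivative 𝓘(ℝ, E) E fun x : X => TangentSpace 𝓘(ℝ, E) x

/-- `b₁(X) = 0`: every closed one-form is the differential of a smooth function. -/
def B1Zero : Prop :=
  ∀ η : Form E X 1, (∀ U V x, dOne η U V x = 0) →
    ∃ f : X → ℝ, ContMDiff 𝓘(ℝ, E) 𝓘(ℝ, ℝ) ∞ f ∧ ∀ x v, val1 η x v = mvfderiv 𝓘(ℝ, E) f x v

variable {E X}

/-- `α = ∑ a_i w_i`, with constant coefficients. -/
def Comb (a : Fin 3 → ℝ) (w : Fin 3 → Form E X 2) (α : Form E X 2) : Prop :=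
  ∀ x v, val α x v = ∑ i, a i * val (w i) x v

omit [IsManifold 𝓘(ℝ, E) ∞ X] in
/-- The vector `J v`. -/
noncomputable def act (J : Endo E X) (x : X) (v : TangentSpace 𝓘(ℝ, E) x) :
    TangentSpace 𝓘(ℝ, E) x := J x v

/-- The number `g(a, b)`. -/
noncomputable def ip (g : Metric E X) (x : X) (a b : TangentSpace 𝓘(ℝ, E) x) : ℝ := g.inner x a b

/-- The vector `∇_v σ` at `x`. -/
noncomputable def cov (D : Connection E X) (σ : ∀ y : X, TangentSpace 𝓘(ℝ, E) y) (x : X)
    (v : TangentSpace 𝓘(ℝ, E) x) : TangentSpace 𝓘(ℝ, E) x := D σ x v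

omit [IsManifold 𝓘(ℝ, E) ∞ X] in
/-- Every point lies in a chart `c` with values in `F`, smooth with smooth inverse, whose
differential carries `J` to the map `I` of `F`. -/
def HasCharts (F : Type) [NormedAddCommGroup F] [NormedSpace ℝ F] (I : F → F) (J : Endo E X) :
    Prop :=
  ∀ x : X, ∃ c : OpenPartialHomeomorph X F, x ∈ c.source ∧
    ContMDiffOn 𝓘(ℝ, E) 𝓘(ℝ, F) ∞ c c.source ∧ ContMDiffOn 𝓘(ℝ, F) 𝓘(ℝ, E) ∞ c.symm c.target ∧
    ∀ y ∈ c.source, ∀ v, mvfderiv 𝓘(ℝ, E) c y (act J y v) = I (mvfderiv 𝓘(ℝ, E) c y v)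

omit [IsManifold 𝓘(ℝ, E) ∞ X] in
/-- `J` is a complex structure: it is the multiplication by `i` in charts with values in `ℂ²`. -/
def IsComplex (J : Endo E X) : Prop := HasCharts (Fin 2 → ℂ) (fun z => Complex.I • z) J

/-- `D` is the Levi-Civita connection of `g`: torsion free and metric. -/
def IsLeviCivita (g : Metric E X) (D : Connection E X) : Prop :=
  ∀ (U V W : Vec E X) (x : X), cov D (vec V) x (vec U x) - cov D (vec U) x (vec V x) = br U V x ∧
    der U (fun y => ip g y (vec V y) (vec W y)) x =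
      ip g x (cov D (vec V) x (vec U x)) (vec W x) + ip g x (vec V x) (cov D (vec W) x (vec U x))

/-- `J` is parallel: `∇(J V) = J ∇V`. -/
def IsParallel (D : Connection E X) (J : Endo E X) : Prop :=
  ∀ (V : Vec E X) (x : X) (v : TangentSpace 𝓘(ℝ, E) x),
    cov D (fun y => act J y (vec V y)) x v = act J x (cov D (vec V) x v)

/-- `g` is a hyperkaehler metric with Kaehler forms `u₀, u₁, u₂`: there are three complex
structures with `J₀ J₁ = ± J₂`, orthogonal and parallel for `g`, and `u_i = g (J_i ·, ·)`. -/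
def IsHyperkahlerMetric (g : Metric E X) (u : Fin 3 → Form E X 2) : Prop :=
  ∃ (J : Fin 3 → Endo E X) (D : Connection E X), IsLeviCivita g D ∧
    ((∀ x v, act (J 0) x (act (J 1) x v) = act (J 2) x v) ∨
      ∀ x v, act (J 0) x (act (J 1) x v) = -act (J 2) x v) ∧
    ∀ i, IsComplex (J i) ∧ IsParallel D (J i) ∧ ∀ x a b,
      ip g x (act (J i) x a) (act (J i) x b) = ip g x a b ∧
      val2 (u i) x a b = ip g x (act (J i) x a) b

variable (E X)

/-- `X` underlies a K3 surface: `b₁ = 0`, and for some complex structure `J` there is a nowhere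
vanishing closed two-form `α + i β` of type `(2,0)`, that is, a holomorphic volume form. -/
def IsK3 : Prop :=
  B1Zero E X ∧ ∃ (J : Endo E X) (α β : Form E X 2), IsComplex J ∧ IsClosedForm α ∧
    IsClosedForm β ∧ (∀ x, ∃ a b, val2 α x a b ≠ 0) ∧
    ∀ x a b, val2 α x (act J x a) b = -val2 β x a b ∧ val2 β x (act J x a) b = val2 α x a b

end Vale.Agent.N247
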