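import Vale.Agent.N247.Defs
import Vale.Agent.P247A.AllQ
import Vale.Agent.P247Y.LocInv

/-!
# P247, block N: the case of positive first Betti number
-/

set_option linter.all false

open scoped Manifold ContDiff Topology
open Set Filter

noncomputable section

namespace Vale.Agent.N247

open Vale.Agent.P247X Vale.Agent.P247A Vale.Agent.P247.SCY Vale.Agent.P247.SCY.HS
open Vale.Agent.P247.H74 (R4)
open Vale.Agent.P247.H574 (tr)

theorem exists_t4 (X : Type) [Cl4 X] {μ : Form X 4} (hμ : Volume μ) (hb : ¬ P247X.B1Zero X)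
    {w : Tri X} (hw : Hypersymplectic μ w) : ∃ P : R4 → X, IsT4 P := by
  have hp := bp_of_bpq bpq X μ hμ w hw
  obtain ⟨b, ⟨B⟩⟩ := h1z X
  obtain ⟨k, rfl⟩ := mod4 X μ hμ hp w hw b B
  obtain ⟨k, rfl⟩ : ∃ j, k = j + 1 := by
    cases k with
    | zero => exact absurd (b1_of B) hb
    | succ j => exact ⟨j, rfl⟩
  have k0 : (0 : ℝ) ≤ k := Nat.cast_nonneg k
  -- curves in a given primitive class
  have cv : ∀ L : LB X, PrimL μ L → 0 ≤ pair μ L.F L.F →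
      ((((4 * (k + 1) : ℕ) : ℝ) - 2 ≤ pair μ L.F L.F ∨
        (pair μ L.F L.F = ((4 * (k + 1) : ℕ) : ℝ) - 4 ∧ ∃ (g g' : X → ℂ) (β : Form X 2),
          Circ g ∧ Circ g' ∧ IsCup g g' β ∧ pair μ L.F β ≠ 0))) →
      ∃ w' : Tri X, Hypersymplectic μ w' ∧ NSis μ w' L ∧ ∃ K : Irr (Jw w'), IsCls μ K.T L.F := by
    intro L l1 l2 l3
    obtain ⟨w', hw', ns⟩ := move X μ hμ hp w hw L l1 l2
    obtain ⟨H⟩ := swh_of_quant P247W.quant X μ hμ hp w' hw' _ B L ns.h0 ns.h1 ns.h2 l3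
    obtain ⟨T, t1, t2⟩ := P247H.ICURX X μ hμ w' hw' L H
    exact ⟨w', hw', ns, irr1 X μ hμ w' hw' L ns T t1 t2⟩
  obtain ⟨L₁, p1, s1⟩ := (latt X μ hμ hp w hw (2 * k + 1)).1
  push_cast at s1 cv
  obtain ⟨w₁, hw₁, -, K₁, c1⟩ := cv L₁ p1 (by linarith) (Or.inl (by linarith))
  have e1 := c1.2 _ c1.1
  have b2 := (P247B.betti_of_bp (bp_of_bpq bpq) X μ hμ w₁ hw₁ _ B K₁ _ c1 (by linarith)).2
  push_cast at b2
  obtain ⟨i, j, β, u1, u2⟩ : ∃ i j β, IsCup (B.g i) (B.g j) β ∧ K₁.T β ≠ 0 := by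
    by_contra! h
    linarith [b2 h]
  obtain ⟨L₀, v1, v2⟩ := cup X μ _ _ (B.circ i) (B.circ j)
  obtain rfl := u1.uniq v1
  rw [c1.2 _ L₀.F_sc] at u2
  obtain ⟨L, p, s, t⟩ := (latt X μ hμ hp w hw (2 * k)).2 L₀ L₁ v2 u2
  push_cast at s
  obtain ⟨w₂, hw₂, ns, K, c⟩ := cv L p (by linarith)
    (Or.inr ⟨by linarith, _, _, _, B.circ i, B.circ j, v1, t⟩)
  have e := c.2 _ c.1
  have z : pair μ L.F L.F = 0 := by
    by_contra h
    have := (P247B.betti_of_bp (bp_of_bpq bpq) X μ hμ w₂ hw₂ _ B K _ c (by rw [e]; exact lt_of_le_of_ne (by linarith) (Ne.symm h))).1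
    push_cast at this
    linarith
  obtain ⟨S, -, hS⟩ := torx X μ hμ w₂ hw₂ K _ c (e.trans z) _ _ _ (B.circ i) (B.circ j) v1
    (by rw [c.2 _ L₀.F_sc]; exact t)
  obtain ⟨θ, hθ⟩ := P247D.fol X μ hμ w₂ hw₂ L ns z _ _ _ (B.circ i) (B.circ j) v1 t S hS
  exact cof X θ hθ

theorem circle_sec (z : Circle) (θ : ℝ) (h : Circle.exp θ = z) :
    ∃ s : Circle → ℝ, ContMDiffAt (𝓡 1) 𝓘(ℝ, ℝ) ∞ s z ∧ ∀ y, Circle.exp (s y) = y := by
  haveI : Fact (Module.finrank ℝ ℂ = 1 + 1) := ⟨Complex.finrank_real_complex⟩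
  refine ⟨fun y => θ + Complex.arg ((y / z : Circle) : ℂ), ?_, fun y => by
    rw [Circle.exp_add, Circle.exp_arg, h, mul_div_cancel]⟩
  have h1 : ContDiffAt ℝ ∞ (fun u : ℂ => θ + (Complex.log (u / z)).im) z := by
    have a : (z : ℂ) / z ∈ Complex.slitPlane := by
      rw [div_self z.coe_ne_zero]; exact Complex.one_mem_slitPlane
    have b := ((Complex.contDiffAt_log (n := ∞) a).restrict_scalars ℝ).comp (z : ℂ)
      (f := fun u : ℂ => u / z) (contDiffAt_id.div_const _)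
    exact contDiffAt_const.add (Complex.imCLM.contDiff.contDiffAt.comp _ b)
  have h2 : ContMDiff (𝓡 1) 𝓘(ℝ, ℂ) ∞ fun y : Circle => (y : ℂ) := contMDiff_coe_sphere
  have h3 := h1.contMDiffAt.comp z (h2 z)
  refine h3.congr_of_eventuallyEq (Eventually.of_forall fun y => ?_)
  simp only [Complex.log_im, Circle.coe_div]
  rfl

/-- the universal covering of the product of four circles -/
def cov4 (y : R4) : Circle × Circle × Circle × Circle :=
  (Circle.exp (2 * Real.pi * y 0), Circle.exp (2 * Real.pi * y 1), Circle.exp (2 * Real.pi * y 2),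
    Circle.exp (2 * Real.pi * y 3))

theorem exp_iff (a b : ℝ) : Circle.exp (2 * Real.pi * a) = Circle.exp (2 * Real.pi * b) ↔
    ∃ m : ℤ, b = a + m := by
  rw [eq_comm, Circle.exp_eq_exp]
  refine exists_congr fun m => ⟨fun h => ?_, fun h => by rw [h]; ring⟩
  have : (2 * Real.pi) ≠ 0 := by positivity
  exact mul_left_cancel₀ this (by rw [h]; ring)

theorem cov4_iff (y z : R4) : cov4 y = cov4 z ↔ ∃ k, z = tr k y := by
  simp only [cov4, Prod.mk.injEq, exp_iff]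
  constructor
  · rintro ⟨⟨a, ha⟩, ⟨b, hb⟩, ⟨c, hc⟩, d, hd⟩
    refine ⟨![a, b, c, d], funext fun i => ?_⟩
    fin_cases i
    exacts [ha, hb, hc, hd]
  · rintro ⟨k, rfl⟩
    exact ⟨⟨k 0, rfl⟩, ⟨k 1, rfl⟩, ⟨k 2, rfl⟩, k 3, rfl⟩

theorem cov4_sm : ContMDiff 𝓘(ℝ, R4) ((𝓡 1).prod ((𝓡 1).prod ((𝓡 1).prod (𝓡 1)))) ∞ cov4 := by
  have h : ∀ i : Fin 4, ContMDiff 𝓘(ℝ, R4) (𝓡 1) ∞ fun y : R4 => Circle.exp (2 * Real.pi * y i) :=
    fun i => contMDiff_circleExp.comp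
      (contDiff_const.mul (contDiff_apply ℝ ℝ i) : ContDiff ℝ ∞ fun y : R4 => 2 * Real.pi * y i).contMDiff
  exact (h 0).prodMk ((h 1).prodMk ((h 2).prodMk (h 3)))

theorem cov4_sec (z : Circle × Circle × Circle × Circle) : ∃ s : _ → R4,
    ContMDiffAt ((𝓡 1).prod ((𝓡 1).prod ((𝓡 1).prod (𝓡 1)))) 𝓘(ℝ, R4) ∞ s z ∧
      ∀ y, cov4 (s y) = y := by
  obtain ⟨s0, a0, b0⟩ := circle_sec z.1 _ (Circle.exp_arg _)
  obtain ⟨s1, a1, b1⟩ := circle_sec z.2.1 _ (Circle.exp_arg _)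
  obtain ⟨s2, a2, b2⟩ := circle_sec z.2.2.1 _ (Circle.exp_arg _)
  obtain ⟨s3, a3, b3⟩ := circle_sec z.2.2.2 _ (Circle.exp_arg _)
  have hπ : (2 * Real.pi) ≠ 0 := by positivity
  refine ⟨fun y => (2 * Real.pi)⁻¹ • ![s0 y.1, s1 y.2.1, s2 y.2.2.1, s3 y.2.2.2], ?_, fun y => ?_⟩
  · refine (contDiff_const_smul (𝕜 := ℝ) (n := ∞) (F := R4) (2 * Real.pi)⁻¹).contMDiff.contMDiffAt.comp z
      (contMDiffAt_pi_space.2 fun i => ?_)
    have c0 := a0.comp z (f := fun y : Circle × Circle × Circle × Circle => y.1)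
      (I := (𝓡 1).prod ((𝓡 1).prod ((𝓡 1).prod (𝓡 1)))) contMDiffAt_fst
    have c1 := a1.comp z (f := fun y : Circle × Circle × Circle × Circle => y.2.1)
      (I := (𝓡 1).prod ((𝓡 1).prod ((𝓡 1).prod (𝓡 1)))) contMDiffAt_snd.fst
    have c2 := a2.comp z (f := fun y : Circle × Circle × Circle × Circle => y.2.2.1)
      (I := (𝓡 1).prod ((𝓡 1).prod ((𝓡 1).prod (𝓡 1)))) contMDiffAt_snd.snd.fst
    have c3 := a3.comp z (f := fun y : Circle × Circle × Circle × Circle => y.2.2.2)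
      (I := (𝓡 1).prod ((𝓡 1).prod ((𝓡 1).prod (𝓡 1)))) contMDiffAt_snd.snd.snd
    fin_cases i
    exacts [c0, c1, c2, c3]
  · simp only [cov4, Pi.smul_apply, smul_eq_mul, mul_inv_cancel_left₀ hπ]
    exact Prod.ext (b0 _) (Prod.ext (b1 _) (Prod.ext (b2 _) (b3 _)))

theorem isFourTorus_of {X : Type} [TopologicalSpace X] [ChartedSpace E4 X]
    [IsManifold (𝓡 4) ∞ X] {P : R4 → X} (h : IsT4 P) : IsFourTorus E4 X := by
  have sj : Function.Surjective cov4 := fun z => by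
    obtain ⟨s, -, h⟩ := cov4_sec z
    exact ⟨_, h z⟩
  set Ψ := fun x => cov4 (Function.surjInv h.surj x) with hΨ
  set Φ := fun z => P (Function.surjInv sj z) with hΦ
  have e1 : ∀ y, Ψ (P y) = cov4 y := fun y =>
    (cov4_iff _ _).2 ((h.fib _ _).1 (Function.surjInv_eq h.surj _))
  have e2 : ∀ y, Φ (cov4 y) = P y := fun y =>
    (h.fib _ _).2 ((cov4_iff _ _).1 (Function.surjInv_eq sj _))
  refine ⟨⟨⟨Ψ, Φ, fun x => ?_, fun z => ?_⟩, fun x => ?_, fun z => ?_⟩⟩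
  · obtain ⟨y, rfl⟩ := h.surj x
    rw [e1, e2]
  · obtain ⟨y, rfl⟩ := sj z
    rw [e2, e1]
  · obtain ⟨y, rfl⟩ := h.surj x
    obtain ⟨e, c1, -, c2, c3⟩ := P247Y.locInv isOpen_univ h.smooth.contMDiffOn (mem_univ y) (h.imm y)
    have hy : P y ∈ e.target := by rw [← c2]; exact e.map_source c1
    refine (cov4_sm.contMDiffAt.comp _
      (c3.contMDiffAt (e.open_target.mem_nhds hy))).congr_of_eventuallyEq ?_
    filter_upwards [e.open_target.mem_nhds hy] with x hx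
    show Ψ x = cov4 (e.symm x)
    rw [← e1, ← c2, e.right_inv hx]
  · obtain ⟨s, c1, c2⟩ := cov4_sec z
    refine (h.smooth.contMDiffAt.comp z c1).congr_of_eventuallyEq (Eventually.of_forall fun y => ?_)
    show Φ y = P (s y)
    rw [← e2, c2]

end Vale.Agent.N247
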