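import Vale.Agent.N247.Frag
import Vale.Agent.P247F.HK5
import Vale.Agent.P247F.Pair
import Vale.Agent.P247M.Int

/-!
# P247, block N: the volume form of the hyperkaehler end can be prescribed
-/

set_option linter.all false

open scoped BigOperators ContDiff Topology ComplexOrder Matrix Manifold
open Set Complex Filter MeasureTheory

noncomputable section

namespace Vale.Agent.N247
open Vale.Agent.P204.T4 Vale.Agent.P204.Mfd Vale.Agent.P272.K
open Vale.Agent.P247.SCY Vale.Agent.P247F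
open Vale.Agent.P247M (pb dP SmF RF rf hs one)
open Vale.Agent.P267.H175 (dF SmAt)

theorem yau_vol {X : Type} [P247X.Cl4 X] {μ : HS.Form X 4} (hμ : HS.Volume μ)
    {α β γ : HS.Form X 2} (h : TriPos μ α β γ) (hα : P247X.SC α) (hβ : P247X.SC β)
    (hγ : P247X.SC γ) (h1 : ∀ x, HS.quot μ β β x = HS.quot μ γ γ x)
    (h2 : ∀ x, HS.quot μ β γ x = 0) (h3 : ∀ x, HS.quot μ α β x = 0)
    (h4 : ∀ x, HS.quot μ α γ x = 0) {f : X → ℝ} (sf : ∀ x, SmF f x) (pβ : ∀ x, 0 < f x) :
    ∃ θ : HS.Form X 2, P247X.SC θ ∧ HS.Exact θ ∧ Tames (fun x => α x + θ x) (Jf α β γ) ∧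
      ∃ κ : ℝ, ∀ x, HS.quot μ (fun x => α x + θ x) (fun x => α x + θ x) x = κ * f x := by
  have hdef := defAt_of_triPos h
  have H := exists_adp h hα.1 hβ hγ h1 h2
  set J := Jf α β γ with hJd
  have hJ : AlmostComplex J := Jf_almostComplex hdef hα.1 hβ.1 hγ.1
  letI := chOf H
  haveI := mf_chOf H
  have aβ : ∀ {c : Chart 2 X} {x}, Adp J c → x ∈ c.source → Anti (pb c.symm β (c x)) :=
    fun hc hx => anti_pb hc hx (Jf_anti_B hdef _)
  have aγ : ∀ {c : Chart 2 X} {x}, Adp J c → x ∈ c.source → Anti (pb c.symm γ (c x)) :=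
    fun hc hx => anti_pb hc hx (Jf_anti_C hdef _)
  have iα : ∀ {c : Chart 2 X} {x}, Adp J c → x ∈ c.source → Inv (pb c.symm α (c x)) := by
    intro c x hc hx
    refine inv_of_perp (aβ hc hx) (aγ hc hx) ?_ ?_ ?_
    · rw [cV_pb hx, cV_pb hx, dsc_pull]
      exact mul_ne_zero (pow_ne_zero _ (det_frM hc.toSmC hx)) (triPos_iff.1 h x).dsc_pos.ne'
    · rw [Q_pb μ (ax_ne hμ x) hx, h3, mul_zero]
    · rw [Q_pb μ (ax_ne hμ x) hx, h4, mul_zero]
  have cα : ∀ {c : Chart 2 X} {x}, Adp J c → x ∈ c.source → ContDiffAt ℝ ∞ (pb c.symm α) (c x) :=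
    fun {c x} hc hx => (P247M.contDiffOn_pb c.open_target hc.sms hα.1).contDiffAt
      (c.open_target.mem_nhds (c.map_source hx))
  have hK : IsKahler (n := 2) (X := X) fun c z => herm (pb c.symm α z) :=
    { smooth := fun c x hc i j => herm_cd (cα hc.1 hc.2) i j
      posDef := fun c x hc => (herm_posDef_iff (iα hc.1 hc.2)).2
        ((tames_pb hc.1 hc.2 α).2 (Jf_tames' hdef x))
      change := fun c c' x hc hc' => by
        have a1 : Adp J c := hc.1
        have a2 : Adp J c' := hc'.1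
        have e : jacM c c' x = Matrix.of fun p i =>
            fderiv ℝ (fun z => c' (c.symm z)) (c x) (Pi.single i 1) p := by
          ext p i
          exact dz_lin ((trn_cd a1.toSmC a2.toSmC hc.2 hc'.2).differentiableAt (by simp))
            (trn_I a1 a2 hc.2 hc'.2) p i
        rw [e, pb_trn a1.toSmC a2.toSmC hc.2 hc'.2]
        exact herm_comp (iα a2 hc'.2) _ (trn_I a1 a2 hc.2 hc'.2)
      closed := fun c x hc i j k => closed_herm ((cα hc.1 hc.2).differentiableAt (by simp))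
        (ev_target hc.2 (P := fun z => Inv (pb c.symm α z)) fun y hy => iα hc.1 hy)
        (P247M.extDeriv_pb_sc c.open_target (Adp.toSmC hc.1).sms hα (c.map_source hc.2)) i j k }
  have pα : ∀ x, 0 < HS.quot μ α α x := fun x => by
    have := h x 1 0 0 (Or.inl one_ne_zero)
    linarith
  obtain ⟨u, κ, hu, hp, he⟩ := P299.H835.yau (n := 2) (X := X) _ hK
    (fun x => Real.log (f x) - Real.log (HS.quot μ α α x)) (fun c x hc => by
      have a1 := cd_symm (Adp.toSmC hc.1) (sf x) hc.2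
      have a2 := cd_symm (Adp.toSmC hc.1) (P247M.smF_quot hμ hα.1 hα.1 x) hc.2
      exact (a1.log (pβ _).ne').sub (a2.log (pα _).ne'))
  have hu' : ∀ x, SmF u x := fun x => by
    obtain ⟨c, hc, hx⟩ := H x
    exact smF_of_symm hc.toSmC hx (hu c x ⟨hc, hx⟩)
  have sη := P247M.smooth_iff.1 (smooth_dcX hJ hu')
  set θ : HS.Form X 2 := hs (dF (rf (dcX J u))) with hθ
  have sθ : HS.Smooth θ := P247M.smooth_iff.2 (P247M.smAt_dF' sη)
  have eθ : HS.Exact θ := P247M.exact_iff.2 ⟨_, sη, rfl⟩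
  have key : ∀ {c : Chart 2 X} {x}, Adp J c → x ∈ c.source →
      Inv (pb c.symm (fun x => α x + θ x) (c x)) ∧
      herm (pb c.symm (fun x => α x + θ x) (c x)) =
        addH (fun c z => herm (pb c.symm α z)) u c (c x) := by
    intro c x hc hx
    have a1 := cd_symm hc.toSmC (hu' x) hx
    rw [P247M.pb_add, hθ, pb_ddc hJ hc hu' hx, herm_add, herm_ddc a1]
    exact ⟨(iα hc hx).add (inv_ddc a1), rfl⟩
  refine ⟨θ, ⟨sθ, exact_closed eθ⟩, eθ, fun x => ?_, Real.exp κ, fun x => ?_⟩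
  · obtain ⟨c, hc, hx⟩ := H x
    have a1 := hp c x ⟨hc, hx⟩
    rw [← (key hc hx).2, herm_posDef_iff (key hc hx).1] at a1
    exact (tames_pb hc hx _).1 a1
  · obtain ⟨c, hc, hx⟩ := H x
    have a1 := (Complex.pos_iff.1 (hp c x ⟨hc, hx⟩).det_pos).1
    have a2 := (Complex.pos_iff.1 (hK.posDef c x ⟨hc, hx⟩).det_pos).1
    have a3 := he c x ⟨hc, hx⟩
    rw [← (key hc hx).2, det_herm (key hc hx).1, Q_pb μ (ax_ne hμ x) hx] at a1 a3
    rw [det_herm (iα hc hx), Q_pb μ (ax_ne hμ x) hx] at a2 a3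
    set m := det4 (frM c x) * ax μ x HS.bas
    set q := HS.quot μ (fun x => α x + θ x) (fun x => α x + θ x) x
    have b1 := pα x
    have b2 := pβ x
    have hm : 0 < m := by
      by_contra hcon
      push Not at hcon
      have := mul_nonpos_of_nonpos_of_nonneg hcon b1.le
      linarith
    have hq : 0 < q := by
      by_contra hcon
      push Not at hcon
      have := mul_nonpos_of_nonneg_of_nonpos hm.le hcon
      linarith
    rw [Real.log_div (mul_pos hm hq).ne' (by norm_num), Real.log_div (mul_pos hm b1).ne' (by norm_num),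
      Real.log_mul hm.ne' hq.ne', Real.log_mul hm.ne' b1.ne'] at a3
    have a4 : Real.log q = κ + Real.log (f x) := by linarith
    rw [← Real.exp_log hq, a4, Real.exp_add, Real.exp_log b2]

variable {X : Type} [P247X.Cl4 X] {μ : HS.Form X 4}

/-- for a hyperkaehler triple `w_i ∧ w_j = 2 c δ_ij μ` -/
theorem hk_quot (hμ : HS.Volume μ) {v : Fin 3 → HS.Form X 2} (h : P247X.Hyperkahler μ v) :
    ∃ c : X → ℝ, ∀ x i j, HS.quot μ (v i) (v j) x = if i = j then 2 * c x else 0 := by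
  obtain ⟨-, ν, hν, -, h2⟩ := h
  refine ⟨fun x => ax ν x HS.bas / ax μ x HS.bas, fun x i j => ?_⟩
  have a1 : HS.quot ν (v i) (v j) x / 2 = (1 : Matrix (Fin 3) (Fin 3) ℝ) i j :=
    congrFun (congrFun (h2 x) i) j
  have a2 := ax_ne hν x
  have a3 := ax_ne hμ x
  rw [quot_cx, Matrix.one_apply] at a1
  rw [quot_cx]
  split_ifs at a1 ⊢
  · field_simp at a1 ⊢
    linarith
  · field_simp at a1 ⊢
    linarith

theorem def_fx {w v u : Fin 3 → HS.Form X 2} {W : ℝ → Fin 3 → HS.Form X 2} {j : Fin 3}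
    (hW : HS.Deformation μ w W) (h1 : W 1 = v) (h : Fx μ j v u) :
    ∃ W', HS.Deformation μ w W' ∧ W' 1 = u := by
  induction h with
  | refl => exact ⟨W, hW, h1⟩
  | @tail b c _ h2 ih =>
    obtain ⟨W, hW, h1⟩ := ih
    obtain ⟨hk, hc, -⟩ := h2
    obtain ⟨W', hW', h1'⟩ := deformation_append hW (θ := fun i x => c i x - b i x)
      (fun i => ⟨smooth_sub (hk.hv.smooth i) (hk.hw.smooth i),
        closed_sub (hk.hv.smooth i) (hk.hw.smooth i) (hk.hv.closed i) (hk.hw.closed i),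
        hc i⟩) (fun s hs x => by rw [h1]; exact hk.pos s hs x)
    refine ⟨W', hW', ?_⟩
    rw [h1', h1]
    funext i x
    simp only [add_sub_cancel]

/-- the end of the deformation has the prescribed volume form -/
theorem fix_vol (hμ : HS.Volume μ) (hm : (HS.vol μ).real univ = 1 / 2) {w : Fin 3 → HS.Form X 2}
    (hw : HS.Hypersymplectic μ w) (hn : HS.Normalized μ w) {W : ℝ → Fin 3 → HS.Form X 2}
    (hW : HS.Deformation μ w W) (hk : P247X.Hyperkahler μ (W 1)) :
    ∃ W', HS.Deformation μ w W' ∧ ∀ x, HS.Qm μ (W' 1) x = 1 := by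
  set v := W 1 with hv
  have hy := hk.1
  obtain ⟨c, hc⟩ := hk_quot hμ hk
  obtain ⟨θ, t1, t2, t3, κ, t4⟩ := yau_vol hμ (hyper_tri hy) ⟨hy.smooth 2, hy.closed 2⟩
    ⟨hy.smooth 0, hy.closed 0⟩ ⟨hy.smooth 1, hy.closed 1⟩ (fun x => by simp [hc])
    (fun x => by simp [hc]) (fun x => by simp [hc]) (fun x => by simp [hc]) (f := fun _ => 2)
    (fun _ => contMDiffAt_const) fun _ => two_pos
  set v' : Fin 3 → HS.Form X 2 := ![v 0, v 1, fun x => v 2 x + θ x] with hv'
  have mv : MvAt μ 2 v v' := mvAt_of_tames hy rfl rfl (smooth_add (hy.smooth 2) t1.1)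
    (closed_add (hy.smooth 2) t1.1 (hy.closed 2) t1.2) t3
  have co : Coh v v' := coh_of_mvAt mv.2 (by
    show HS.Exact fun x => v 2 x + θ x - v 2 x
    simpa only [add_sub_cancel_left] using t2)
  obtain ⟨W1, d1, e1⟩ := def_fx (j := 0) hW rfl (Relation.ReflTransGen.single ⟨mv.1, co, rfl⟩)
  have n1 := normalized_deformation hμ (vol_fin hμ hw) hw hn d1 2 2
  rw [e1, if_pos rfl] at n1
  have hκ : κ = 1 := by
    have a : HS.pair μ (v' 2) (v' 2) = ∫ _, κ * 2 ∂(HS.vol μ) :=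
      congrArg (fun f : X → ℝ => ∫ x, f x ∂(HS.vol μ)) (funext t4)
    rw [a, integral_const, hm, smul_eq_mul] at n1
    linarith
  obtain ⟨ψ, o1, o2⟩ := rl_slot hμ mv.1.symm mv.symm.2 (co.symm 2)
  obtain ⟨W2, d2, e2⟩ := def_fx d1 e1 o2
  refine ⟨W2, d2, fun x => ?_⟩
  obtain ⟨U, -, u1, u2⟩ := o2.deformation mv.1.hv
  obtain ⟨c', hc'⟩ := hk_quot hμ (o1.hk hμ hk)
  have a1 : pl ψ (v 2) = v' 2 := (congrFun u1 2).symm.trans (u2 1)
  have a2 := hc' x 2 2
  rw [a1, if_pos rfl, show HS.quot μ (v' 2) (v' 2) x = _ from t4 x, hκ] at a2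
  rw [e2]
  ext i j
  show HS.quot μ (pl ψ (v i)) (pl ψ (v j)) x / 2 = _
  rw [hc' x i j, Matrix.one_apply]
  split_ifs
  · linarith
  · exact zero_div _

end Vale.Agent.N247
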