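import Vale.Agent.N247.Met
import Vale.Agent.N247.Tor
import Vale.Agent.N247.Vol
import Vale.Agent.P247I47.Nm
import Vale.Agent.P247X.Wrap

/-!
# P247: constant linear changes of the triple, and the assembly
-/

set_option linter.all false

open scoped BigOperators ContDiff Topology Manifold Matrix
open Set MeasureTheory

noncomputable section

namespace Vale.Agent.N247

open Vale.Agent.P247.SCY Vale.Agent.P247.SCY.HS
open Vale.Agent.P247X (lc Cl4)

theorem exists_orth {a : Fin 3 → ℝ} (ha : a ≠ 0) : ∃ (A : Matrix (Fin 3) (Fin 3) ℝ) (r : ℝ),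
    0 < r ∧ A * Aᵀ = 1 ∧ ∀ j, a j = r * A 0 j := by
  let n : EuclideanSpace ℝ (Fin 3) := WithLp.toLp 2 a
  have hn : n ≠ 0 := fun h => ha (congrArg WithLp.ofLp h)
  have hr : 0 < ‖n‖ := norm_pos_iff.2 hn
  have ho : Orthonormal ℝ (({0} : Set (Fin 3)).restrict fun _ => ‖n‖⁻¹ • n) := by
    refine ⟨fun i => ?_, fun i j h => absurd (Subsingleton.elim i j) h⟩
    show ‖‖n‖⁻¹ • n‖ = 1
    rw [norm_smul, norm_inv, norm_norm, inv_mul_cancel₀ hr.ne']
  obtain ⟨b, hb⟩ := ho.exists_orthonormalBasis_extension_of_card_eq (by simp)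
  refine ⟨Matrix.of fun i j => b i j, ‖n‖, hr, ?_, fun j => ?_⟩
  · ext i j
    have h := orthonormal_iff_ite.1 b.orthonormal j i
    rw [PiLp.inner_apply] at h
    simp only [Matrix.mul_apply, Matrix.transpose_apply, Matrix.of_apply, Matrix.one_apply]
    simpa [eq_comm] using h
  · rw [Matrix.of_apply, hb 0 rfl]
    show a j = ‖n‖ * (‖n‖⁻¹ * a j)
    field_simp

section

variable {X : Type} [TopologicalSpace X] [ChartedSpace E4 X] {μ : Form X 4}
variable {w : Fin 3 → Form X 2} {A B : Matrix (Fin 3) (Fin 3) ℝ}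

/-- a constant linear change of a triple -/
def mx (A : Matrix (Fin 3) (Fin 3) ℝ) (w : Fin 3 → Form X 2) : Fin 3 → Form X 2 :=
  fun i => lc w (A i)

theorem lc_apply (w : Fin 3 → Form X 2) (a : Fin 3 → ℝ) (x : X) (v) :
    lc w a x v = a 0 * w 0 x v + a 1 * w 1 x v + a 2 * w 2 x v := by
  simp only [lc, Fin.sum_univ_three]
  rfl

theorem mx_mx (A B : Matrix (Fin 3) (Fin 3) ℝ) (w : Fin 3 → Form X 2) :
    mx A (mx B w) = mx (A * B) w := by
  funext i x
  ext v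
  simp only [mx, lc_apply, Matrix.mul_apply, Fin.sum_univ_three]
  ring

theorem mx_one (w : Fin 3 → Form X 2) : mx 1 w = w := by
  funext i x
  ext v
  fin_cases i <;> simp [mx, lc_apply, Matrix.one_apply]

theorem quot_symm (α β : Form X 2) (x : X) : quot μ α β x = quot μ β α x := by
  simp only [quot, wedge]
  ring

theorem Qm_mx (A : Matrix (Fin 3) (Fin 3) ℝ) (w : Fin 3 → Form X 2) (x : X) :
    Qm μ (mx A w) x = A * Qm μ w x * Aᵀ := by
  ext i j
  simp only [Qm, quot, wedge, mx, lc_apply, Matrix.mul_apply, Fin.sum_univ_three, Matrix.of_apply,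
    Matrix.transpose_apply]
  ring

theorem hyp_mx (hA : IsUnit A) (hw : Hypersymplectic μ w) : Hypersymplectic μ (mx A w) := by
  refine ⟨fun i => (P247X.sc_lc (P247X.hyp_sc hw) _).1,
    fun i => (P247X.sc_lc (P247X.hyp_sc hw) _).2, fun x => ?_⟩
  have := (hw.posDef x).mul_mul_conjTranspose_same (B := A) (Matrix.vecMul_injective_of_isUnit hA)
  rwa [Matrix.conjTranspose_eq_transpose_of_trivial, ← Qm_mx] at this

theorem unit_of {c : ℝ} (hc : 0 < c) (hA : A * Aᵀ = c • 1) : IsUnit A := by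
  have h : A * (c⁻¹ • Aᵀ) = 1 := by
    rw [Matrix.mul_smul, hA, smul_smul, inv_mul_cancel₀ hc.ne', one_smul]
  exact (Matrix.isUnit_iff_isUnit_det A).2 (Matrix.isUnit_det_of_right_inverse h)

theorem hk_mx {c : ℝ} (hc : 0 < c) (hA : A * Aᵀ = c • 1) (h : P247X.Hyperkahler μ w) :
    P247X.Hyperkahler μ (mx A w) := by
  obtain ⟨h1, ν, h2, h3, h4⟩ := h
  refine ⟨hyp_mx (unit_of hc hA) h1, fun x => c • ν x,
    ⟨smooth_smul h2.smooth c, fun x => smul_ne_zero hc.ne' (h2.ne_zero x)⟩, fun x => ?_,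
    fun x => ?_⟩
  · have : (c • ν x) (tbas x) / μ x (tbas x) = c * (ν x (tbas x) / μ x (tbas x)) := by
      show c * ν x (tbas x) / μ x (tbas x) = _
      ring
    rw [this]
    exact mul_pos hc (h3 x)
  · have : Qm (fun x => c • ν x) w x = c⁻¹ • Qm ν w x := by
      ext i j
      show wedge (w i x) (w j x) (tbas x) / (c * ν x (tbas x)) / 2 =
        c⁻¹ * (wedge (w i x) (w j x) (tbas x) / ν x (tbas x) / 2)
      ring
    rw [Qm_mx, this, h4, Matrix.mul_smul, Matrix.mul_one, Matrix.smul_mul, hA, smul_smul,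
      inv_mul_cancel₀ hc.ne', one_smul]

theorem def_mx (hA : IsUnit A) {W : ℝ → Fin 3 → Form X 2} (h : Deformation μ w W) :
    Deformation μ (mx A w) fun t => mx A (W t) := by
  refine ⟨fun i e he => ?_, fun t ht => hyp_mx hA (h.hyper t ht), by rw [h.start], fun t i => ?_⟩
  · refine ((((h.smooth 0 e he).const_smul (A i 0)).add ((h.smooth 1 e he).const_smul (A i 1))).add
      ((h.smooth 2 e he).const_smul (A i 2))).congr fun p _ => ?_
    ext v
    exact lc_apply (W p.1) (A i) _ _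
  · have := exact_add (exact_add (exact_smul (h.exact t 0) (A i 0))
      (exact_smul (h.exact t 1) (A i 1))) (exact_smul (h.exact t 2) (A i 2))
    convert this using 2 with x
    ext v
    show mx A (W t) i x v - mx A w i x v = A i 0 * (W t 0 x v - w 0 x v) +
      A i 1 * (W t 1 x v - w 1 x v) + A i 2 * (W t 2 x v - w 2 x v)
    simp only [mx, lc_apply]
    ring

end

section

variable {X : Type} [Cl4 X] {μ : Form X 4} {w : Fin 3 → Form X 2}

theorem norm_mx {A : Matrix (Fin 3) (Fin 3) ℝ} (hA : A * Aᵀ = 1) (hμ : Volume μ)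
    (hw : Hypersymplectic μ w) (hn : Normalized μ w) : Normalized μ (mx A w) := by
  intro i j
  have h := congrFun (congrFun hA i) j
  have h1 : ∀ k, pair μ (w k) (lc w (A j)) = A j k := by
    intro k
    rw [P247.SCY.pair_comm, P247X.pair_lc_left hμ hw (P247X.hyp_sc hw) _ (hw.smooth k)]
    simp [hn _ k]
  show pair μ (lc w (A i)) (lc w (A j)) = _
  rw [P247X.pair_lc_left hμ hw (P247X.hyp_sc hw) _ (P247X.sc_lc (P247X.hyp_sc hw) _).1]
  simpa only [h1, Matrix.mul_apply, Matrix.transpose_apply, Matrix.one_apply] using h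

/-- a deformation to a hyperkaehler triple which keeps a given combination of the forms -/
theorem fix_comb (hμ : Volume μ) (hw : Hypersymplectic μ w) (hn : Normalized μ w)
    (a : Fin 3 → ℝ) : ∃ W, Deformation μ w W ∧ P247X.Hyperkahler μ (W 1) ∧
      ∀ t, lc (W t) a = lc w a := by
  by_cases ha : a = 0
  · obtain ⟨W, h1, h2⟩ := P247A.q1 X μ hμ w hw hn
    refine ⟨W, h1, h2, fun t => ?_⟩
    funext x
    ext v
    simp [lc_apply, ha]
  obtain ⟨A, r, hr, hA, hra⟩ := exists_orth ha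
  have hA' : Aᵀ * A = 1 := mul_eq_one_comm.1 hA
  have u1 : IsUnit A := unit_of one_pos (by rw [hA, one_smul])
  have c2 : Aᵀ * Aᵀᵀ = (1 : ℝ) • 1 := by rw [Matrix.transpose_transpose, hA', one_smul]
  have hw' := hyp_mx u1 hw
  obtain ⟨W, h1, h2⟩ := P247A.q1 X μ hμ _ hw' (norm_mx hA hμ hw hn)
  obtain ⟨v, h3, h4⟩ := fix_form hμ h1 h2 0
  obtain ⟨W', h5, h6, h7⟩ := h3.deformation hw'
  have h8 := def_mx (unit_of one_pos c2) h5
  rw [mx_mx, hA', mx_one] at h8
  refine ⟨_, h8, hk_mx one_pos c2 (h6 ▸ h4), fun t => ?_⟩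
  have h9 : mx A (mx Aᵀ (W' t)) 0 = mx A w 0 := by rw [mx_mx, hA, mx_one, h7]
  funext x
  ext z
  have h10 := DFunLike.congr_fun (congrFun h9 x) z
  change lc (mx Aᵀ (W' t)) (A 0) x z = lc w (A 0) x z at h10
  rw [lc_apply, lc_apply] at h10 ⊢
  rw [hra 0, hra 1, hra 2]
  linear_combination r * h10

/-- a nonzero combination of a hyperkaehler triple is the first form of such a triple -/
theorem hk_comb (h : P247X.Hyperkahler μ w) {a : Fin 3 → ℝ} (ha : a ≠ 0) :
    ∃ v, P247X.Hyperkahler μ v ∧ v 0 = lc w a := by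
  obtain ⟨A, r, hr, hA, hra⟩ := exists_orth ha
  refine ⟨mx (r • A) w, hk_mx (mul_pos hr hr) ?_ h, congrArg (lc w) (funext fun j => (hra j).symm)⟩
  rw [Matrix.transpose_smul, Matrix.smul_mul, Matrix.mul_smul, hA, smul_smul]

end

section

open P247U (R4 std val smooth_coe ofSmooth)

variable {X : Type} [TopologicalSpace X] [ChartedSpace R4 X] [IsManifold 𝓘(ℝ, R4) ∞ X]
  [CompactSpace X] [T2Space X]

theorem closed_one {η : P247U.Form R4 X 1} (h : ∀ U V x, P247U.dOne η U V x = 0) :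
    GS.Closed fun x => η x := by
  have h0 : ∀ x₀ : X, extDeriv (GS.loc (chartAt R4 x₀) fun x => η x) (chartAt R4 x₀ x₀) = 0 := by
    intro x₀
    ext v
    obtain ⟨U, hU⟩ := P247U.exists_vec (E := R4) x₀ (v 0)
    obtain ⟨V, hV⟩ := P247U.exists_vec (E := R4) x₀ (v 1)
    have h1 := h U V x₀
    rw [P247U.dOne_eq] at h1
    have h2 : v = ![P247U.pb x₀ U (chartAt R4 x₀ x₀), P247U.pb x₀ V (chartAt R4 x₀ x₀)] := by
      funext i
      fin_cases i
      · exact ((P247U.pb_self x₀ U).trans hU).symm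
      · exact ((P247U.pb_self x₀ V).trans hV).symm
    rw [h2, h1]
    rfl
  intro e he y hy
  have hs := mem_chart_source R4 (e.symm y)
  have hc := chart_mem_atlas R4 (e.symm y)
  have ht := P247U.trans_contDiffAt he hc hy hs
  have hm : minSmoothness ℝ 2 ≤ (∞ : WithTop ℕ∞) := by
    rw [minSmoothness_of_isRCLikeNormedField]
    exact ENat.LEInfty.out
  have hd : DifferentiableAt ℝ (GS.loc (chartAt R4 (e.symm y)) fun x => η x)
      ((chartAt R4 (e.symm y) ∘ e.symm) y) :=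
    (P247U.contDiffAt_loc_chartAt η (e.symm y)).differentiableAt (by simp)
  rw [(P247U.loc_trans_ev _ he hc hy hs).extDeriv_eq, extDeriv_pullback hd ht hm]
  have h3 := h0 (e.symm y)
  ext v
  exact DFunLike.congr_fun h3 _

theorem b1_of (h : P247X.B1Zero X) : B1Zero R4 X := fun η hη => by
  obtain ⟨f, h1, h2⟩ := h (fun x => η x) ⟨smooth_coe η, closed_one hη⟩
  exact ⟨f, h1, h2⟩

variable {μ : P247U.Form R4 X 4}

theorem vol_of (hμ : P247U.IsVolumeForm μ) : Volume (X := X) fun x => μ x :=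
  ⟨smooth_coe μ, P247U.ne_zero_of_isVolumeForm hμ⟩

theorem hyp_of (hμ : P247U.IsVolumeForm μ) {w : Fin 3 → P247U.Form R4 X 2}
    (h : P247U.Hypersymplectic μ w) : Hypersymplectic (X := X) (fun x => μ x) fun i x => w i x :=
  GS.hypersymplectic_iff.1 ((P247U.hyper_iff (P247U.ne_zero_of_isVolumeForm hμ) w).1 h)

theorem hk_of (hμ : P247U.IsVolumeForm μ) {u : Fin 3 → P247U.Form R4 X 2}
    (h : P247U.Hyperkahler μ u) : P247X.Hyperkahler (X := X) (fun x => μ x) fun i x => u i x := by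
  obtain ⟨h1, ν, h2, h3⟩ := h
  have h0 := P247U.ne_zero_of_isVolumeForm hμ
  choose c hc hν using h2
  have h4 : ∀ x, ν x ≠ 0 := by
    intro x h
    have h5 := hν x (GS.tbas GS.bas x)
    rw [val, h] at h5
    exact mul_ne_zero (hc x).ne' (P247U.bas_ne_zero (h0 x)) h5.symm
  refine ⟨hyp_of hμ ⟨h1, fun x => c x • 1, fun i j x v => ?_, fun x => Matrix.PosDef.one.smul (hc x)⟩,
    fun x => ν x, ⟨smooth_coe ν, h4⟩, fun x => ?_, fun x => (congrFun (P247U.eq_Qm h4 h3) x).symm⟩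
  · rw [h3 i j x v, hν]
    simp only [Matrix.smul_apply, smul_eq_mul]
    ring
  · have h5 : ν x (tbas x) = c x * μ x (tbas x) := hν x _
    have h6 : μ x (tbas x) ≠ 0 := P247U.bas_ne_zero (h0 x)
    show 0 < ν x (tbas x) / μ x (tbas x)
    rw [h5, mul_div_assoc, div_self h6, mul_one]
    exact hc x

theorem hk_to (hμ : P247U.IsVolumeForm μ) {u : Fin 3 → P247U.Form R4 X 2}
    (h : P247X.Hyperkahler (X := X) (fun x => μ x) fun i x => u i x) : P247U.Hyperkahler μ u := by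
  obtain ⟨h2, ν, h3, h4, h5⟩ := h
  exact P247U.hyperkahler_of (P247U.ne_zero_of_isVolumeForm hμ)
    ⟨fun i => ⟨h2.smooth i, h2.closed i⟩, ν, GS.volume_iff.2 h3, h4, h5⟩

theorem sum_lc (u : Fin 3 → P247U.Form R4 X 2) (a : Fin 3 → ℝ) (x : X) (v) :
    ∑ i, a i * val (u i) x v = lc (X := X) (fun i x => u i x) a x v := by
  rw [lc_apply, Fin.sum_univ_three]
  rfl

variable [ConnectedSpace X] [MeasurableSpace X] [BorelSpace X]

theorem metric_of (hμ : P247U.IsVolumeForm μ) {u : Fin 3 → P247U.Form R4 X 2}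
    (h : P247U.Hyperkahler μ u) : ∃ g, IsHyperkahlerMetric g u := by
  obtain ⟨J, g, h1⟩ := @exists_hkd X (Cl4.of X) _ (vol_of hμ) _ (hk_of hμ h)
  exact ⟨_, h1.hk fun _ _ => rfl⟩

theorem comb_of (hμ : P247U.IsVolumeForm μ) {m : Measure X} (hm : P247U.IsMeasureOf std μ m)
    {w : Fin 3 → P247U.Form R4 X 2} (hw : P247U.Hypersymplectic μ w) (hn : P247U.Normalized μ m w)
    (a : Fin 3 → ℝ) : ∃ W α, P247U.Deformation μ w W ∧ P247U.Hyperkahler μ (W 1) ∧
      Comb a w α ∧ ∀ t, Comb a (W t) α := by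
  have h0 := P247U.ne_zero_of_isVolumeForm hμ
  obtain ⟨α, hα, -⟩ := P247U.exists_comb a w fun j => P247U.closed_of_isClosedForm (hw.1 j)
  obtain ⟨W, h1, h2, h3⟩ := @fix_comb X (Cl4.of X) _ _ (vol_of hμ) (hyp_of hμ hw)
    (GS.normalized_iff.1 (P247U.normalized_of h0 hm hn)) a
  obtain ⟨W', h4, h5⟩ := P247U.deformation_of h0 (GS.deformation_of h1)
  refine ⟨W', α, h4, hk_to hμ (by rw [h5 1]; exact h2), hα, fun t x v => ?_⟩
  rw [hα, sum_lc, sum_lc, h5 t]
  exact (DFunLike.congr_fun (congrFun (h3 t) x) v).symm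

theorem vol_fix (hμ : P247U.IsVolumeForm μ) {m : Measure X} (hm : P247U.IsMeasureOf std μ m)
    {w : Fin 3 → P247U.Form R4 X 2} (hw : P247U.Hypersymplectic μ w) (hn : P247U.Normalized μ m w)
    (h : m.real univ = 1 / 2) :
    ∃ W, P247U.Deformation μ w W ∧ P247U.WedgeEq μ (W 1) fun _ => 1 := by
  have h0 := P247U.ne_zero_of_isVolumeForm hμ
  have hn' := GS.normalized_iff.1 (P247U.normalized_of h0 hm hn)
  obtain ⟨W, h1, h2⟩ := @P247A.q1 X (Cl4.of X) _ (vol_of hμ) _ (hyp_of hμ hw) hn'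
  rw [← P247U.vol_eq_of_isMeasureOf hm] at h
  obtain ⟨W', h3, h4⟩ := @fix_vol X (Cl4.of X) _ (vol_of hμ) h _ (hyp_of hμ hw) hn' _ h1 h2
  obtain ⟨W'', h5, h6⟩ := P247U.deformation_of h0 (GS.deformation_of h3)
  have h7 := P247U.wedgeEq_Qm h0 (W'' 1)
  rw [h6 1, show GS.Qm GS.bas (fun x => μ x) (W' 1) = fun _ => 1 from funext h4] at h7
  exact ⟨W'', h5, h7⟩

theorem kahler_of (hμ : P247U.IsVolumeForm μ) {w : Fin 3 → P247U.Form R4 X 2}
    (hw : P247U.Hypersymplectic μ w) {a : Fin 3 → ℝ} (ha : a ≠ 0) :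
    ∃ u, P247U.Hyperkahler μ u ∧ Comb a w (u 0) := by
  have h0 := P247U.ne_zero_of_isVolumeForm hμ
  obtain ⟨m, hm⟩ := P247U.exists_isMeasureOf μ
  obtain ⟨u, ⟨A, hA, h1⟩, h2, h3⟩ := P247U.exists_normalized h0 hm hw
  have hb : (a ᵥ* A⁻¹) ᵥ* A = a := by
    rw [Matrix.vecMul_vecMul, Matrix.nonsing_inv_mul _ (Ne.isUnit hA), Matrix.vecMul_one]
  have hb0 : a ᵥ* A⁻¹ ≠ 0 := fun h => ha (by rw [← hb, h, Matrix.zero_vecMul])
  obtain ⟨W, α, _, h4, h9, h5⟩ := comb_of hμ hm h2 h3 (a ᵥ* A⁻¹)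
  obtain ⟨z, h6, h7⟩ := @hk_comb X (Cl4.of X) _ _ (hk_of hμ h4) _ hb0
  refine ⟨fun i => ofSmooth (z i) (h6.1.smooth i), hk_to hμ h6, fun x v => ?_⟩
  have h8 : val (ofSmooth (z 0) (h6.1.smooth 0)) x v = z 0 x v := rfl
  show val (ofSmooth (z 0) (h6.1.smooth 0)) x v = _
  rw [h8, h7, ← sum_lc, ← h5, h9]
  generalize a ᵥ* A⁻¹ = b at hb
  subst hb
  simp only [h1, Matrix.vecMul, dotProduct, Fin.sum_univ_three]
  ring

theorem k3_of (hb : B1Zero R4 X) {u : Fin 3 → P247U.Form R4 X 2}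
    (hu : ∀ i, P247U.IsClosedForm (u i)) {g : Metric R4 X} (h : IsHyperkahlerMetric g u) :
    IsK3 R4 X := by
  obtain ⟨J, D, -, h1, h2⟩ := h
  have o : ∀ i x a b, g.inner x (J i x a) (J i x b) = g.inner x a b :=
    fun i x a b => ((h2 i).2.2 x a b).1
  have f : ∀ i x a b, P247U.val2 (u i) x a b = g.inner x (J i x a) b :=
    fun i x a b => ((h2 i).2.2 x a b).2
  simp only [act] at h1
  unfold IsK3 act
  have s : ∀ i x a b, g.inner x (J i x a) b = -g.inner x a (J i x b) := fun i x a b => by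
    rw [← f, g.symm x a, ← f]
    exact P247U.two_swap (u i x) a b
  have n : ∀ i x, ∃ a b, P247U.val2 (u i) x a b ≠ 0 := fun i x => by
    obtain ⟨a, ha⟩ : ∃ a : TangentSpace 𝓘(ℝ, R4) x, a ≠ 0 := exists_ne (0 : R4)
    refine ⟨a, J i x a, ?_⟩
    rw [f, o]
    exact (g.pos x a ha).ne'
  rcases h1 with h1 | h1
  · refine ⟨hb, J 0, u 1, u 2, (h2 0).1, hu 1, hu 2, n 1, fun x a b => ⟨?_, ?_⟩⟩
    · rw [f, f, s 1, s 0, s 2, h1]
    · rw [f, f, s 2, s 1, ← h1, o]
  · have h3 : ∀ x v, J 2 x v = -J 0 x (J 1 x v) := fun x v => by rw [h1, neg_neg]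
    refine ⟨hb, J 0, u 2, u 1, (h2 0).1, hu 2, hu 1, n 2, fun x a b => ⟨?_, ?_⟩⟩
    · rw [f, f, s 2, s 1, h3, map_neg, o]
    · rw [f, f, s 1, s 0, s 2, h1, map_neg, neg_neg]

theorem meas_of (μ : P247U.Form R4 X 4) :
    ∃ m : Measure X, ∀ m', P247U.IsMeasureOf std μ m' ↔ m' = m := by
  obtain ⟨m, hm⟩ := P247U.exists_isMeasureOf μ
  exact ⟨m, fun m' => ⟨fun h => (P247U.vol_eq_of_isMeasureOf h).symm.trans
    (P247U.vol_eq_of_isMeasureOf hm), fun h => h ▸ hm⟩⟩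

theorem torus_of (hμ : P247U.IsVolumeForm μ) {w : Fin 3 → P247U.Form R4 X 2}
    (hw : P247U.Hypersymplectic μ w) : IsK3 R4 X ∨ IsFourTorus R4 X := by
  by_cases h : P247X.B1Zero X
  · obtain ⟨u, h1, -⟩ := kahler_of hμ hw (a := 1) one_ne_zero
    obtain ⟨g, h2⟩ := metric_of hμ h1
    exact Or.inl (k3_of (b1_of h) h1.1 h2)
  · obtain ⟨P, hP⟩ := @exists_t4 X (Cl4.of X) _ (vol_of hμ) h _ (hyp_of hμ hw)
    exact Or.inr (isFourTorus_of hP)

end

end Vale.Agent.N247
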