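import Vale.Agent.P265.H185.Flow
import Vale.Agent.P267.H175.Alt

/-!
# P247, block N: the argument of Moser for a compactly supported change
-/

set_option linter.all false

open scoped ContDiff Topology
open Set Filter

noncomputable section

namespace Vale.Agent.N247
open Vale.Agent.P267.H175 (contDiffAt_pullback contDiffAt_extDeriv minS)

variable {E : Type} [NormedAddCommGroup E] [NormedSpace ℝ E]

theorem ext_one {γ : E → E [⋀^Fin 1]→L[ℝ] ℝ} (p u v : E) :
    extDeriv γ p ![u, v] = fderiv ℝ γ p u ![v] - fderiv ℝ γ p v ![u] := by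
  rw [extDeriv, ContinuousAlternatingMap.alternatizeUncurryFin_apply, Fin.sum_univ_two]
  have e0 : Fin.removeNth (0 : Fin 2) ![u, v] = ![v] := by funext i; fin_cases i; rfl
  have e1 : Fin.removeNth (1 : Fin 2) ![u, v] = ![u] := by funext i; fin_cases i; rfl
  rw [e0, e1]
  simp [sub_eq_add_neg]

theorem ext_two {Θ : E → E [⋀^Fin 2]→L[ℝ] ℝ} {p : E} (h : DifferentiableAt ℝ Θ p) (u v w : E) :
    extDeriv Θ p ![u, v, w] = fderiv ℝ (fun q => Θ q ![v, w]) p u
      - fderiv ℝ (fun q => Θ q ![u, w]) p v + fderiv ℝ (fun q => Θ q ![u, v]) p w := by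
  rw [extDeriv_apply h, Fin.sum_univ_three]
  have e0 : Fin.removeNth (0 : Fin 3) ![u, v, w] = ![v, w] := by funext i; fin_cases i <;> rfl
  have e1 : Fin.removeNth (1 : Fin 3) ![u, v, w] = ![u, w] := by funext i; fin_cases i <;> rfl
  have e2 : Fin.removeNth (2 : Fin 3) ![u, v, w] = ![u, v] := by funext i; fin_cases i <;> rfl
  rw [e0, e1, e2]
  simp [sub_eq_add_neg]

theorem comp_one {F : Type} [NormedAddCommGroup F] [NormedSpace ℝ F] (A : F [⋀^Fin 1]→L[ℝ] ℝ)
    (L : E →L[ℝ] F) (u : E) : A.compContinuousLinearMap L ![u] = A ![L u] := by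
  rw [ContinuousAlternatingMap.compContinuousLinearMap_apply]
  congr 1
  funext i; fin_cases i; rfl

theorem comp_two {F : Type} [NormedAddCommGroup F] [NormedSpace ℝ F] (A : F [⋀^Fin 2]→L[ℝ] ℝ)
    (L : E →L[ℝ] F) (u v : E) : A.compContinuousLinearMap L ![u, v] = A ![L u, L v] := by
  rw [ContinuousAlternatingMap.compContinuousLinearMap_apply]
  congr 1
  funext i; fin_cases i <;> rfl

/-- the interior product as a linear map -/
def curL : (E [⋀^Fin 2]→L[ℝ] ℝ) →L[ℝ] E →L[ℝ] E [⋀^Fin 1]→L[ℝ] ℝ :=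
  (ContinuousAlternatingMap.curryLeftLI (𝕜 := ℝ) (E := E) (F := ℝ) (n := 1)).toContinuousLinearMap

theorem curL_cd : ContDiff ℝ ∞ fun A : E [⋀^Fin 2]→L[ℝ] ℝ => A.curryLeft :=
  ContinuousLinearMap.contDiff (𝕜 := ℝ) (E := E [⋀^Fin 2]→L[ℝ] ℝ)
    (F := E →L[ℝ] E [⋀^Fin 1]→L[ℝ] ℝ) curL

theorem deriv_st {t : ℝ} (h : t ∉ Icc (0 : ℝ) 1) : deriv Real.smoothTransition t = 0 := by
  rw [mem_Icc, not_and_or, not_le, not_le] at h
  rcases h with h | h
  · have : Real.smoothTransition =ᶠ[𝓝 t] fun _ => 0 := by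
      filter_upwards [Iio_mem_nhds h] with s hs
      exact Real.smoothTransition.zero_of_nonpos (le_of_lt hs)
    rw [this.deriv_eq, deriv_const]
  · have : Real.smoothTransition =ᶠ[𝓝 t] fun _ => 1 := by
      filter_upwards [Ioi_mem_nhds h] with s hs
      exact Real.smoothTransition.one_of_one_le (le_of_lt hs)
    rw [this.deriv_eq, deriv_const]

variable [FiniteDimensional ℝ E]

theorem inv_curry {A : E [⋀^Fin 2]→L[ℝ] ℝ} (h : ∀ u, (∀ v, A ![u, v] = 0) → u = 0) :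
    (A.curryLeft : E →L[ℝ] E [⋀^Fin 1]→L[ℝ] ℝ).IsInvertible := by
  let e := ContinuousAlternatingMap.ofSubsingletonLIE (𝕜 := ℝ) (E := E) (F := ℝ) (0 : Fin 1)
  haveI : FiniteDimensional ℝ (E [⋀^Fin 1]→L[ℝ] ℝ) := e.toLinearEquiv.finiteDimensional
  have hr : Module.finrank ℝ E = Module.finrank ℝ (E [⋀^Fin 1]→L[ℝ] ℝ) := by
    rw [← e.toLinearEquiv.finrank_eq, ← (LinearMap.toContinuousLinearMap (𝕜 := ℝ) (E := E)
      (F' := ℝ)).finrank_eq]
    exact (Subspace.dual_finrank_eq).symm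
  have hi : Function.Injective (A.curryLeft : E →ₗ[ℝ] E [⋀^Fin 1]→L[ℝ] ℝ) := by
    rw [injective_iff_map_eq_zero]
    intro u hu
    exact h u fun v => DFunLike.congr_fun hu ![v]
  exact ⟨(LinearMap.linearEquivOfInjective _ hi hr).toContinuousLinearEquiv, by ext; rfl⟩

/-- a smooth time dependent field with compact support has a flow -/
theorem exists_flow {Y : ℝ × E → E} (hY : ContDiff ℝ ∞ Y) {K : Set E} (hK : IsCompact K)
    (h0 : ∀ p : ℝ × E, p.2 ∉ K → Y p = 0) (h1 : ∀ p : ℝ × E, p.1 ∉ Icc (0 : ℝ) 1 → Y p = 0) :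
    ∃ F : ℝ × E → E, ContDiff ℝ ∞ F ∧ (∀ y, F (0, y) = y) ∧ (∀ s y, y ∉ K → F (s, y) = y) ∧
      (∀ s y, y ∈ K → F (s, y) ∈ K) ∧ ∀ p, fderiv ℝ F p (1, 0) = Y (p.1, F p) := by
  obtain ⟨C, hC⟩ := (isCompact_Icc.prod hK : IsCompact (Icc (0 : ℝ) 1 ×ˢ K)).exists_bound_of_continuousOn
    hY.continuous.continuousOn
  have hZ : ContDiff ℝ ∞ fun p : ℝ × E => ((1 : ℝ), Y p) := contDiff_const.prodMk hY
  have hb : ∀ p : ℝ × E, ‖((1 : ℝ), Y p)‖ ≤ max 1 C := fun p => by
    rw [Prod.norm_mk, norm_one]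
    by_cases a : p.1 ∈ Icc (0 : ℝ) 1
    · by_cases b : p.2 ∈ K
      · exact max_le_max le_rfl (hC p ⟨a, b⟩)
      · rw [h0 p b, norm_zero]; exact max_le (le_max_left _ _) (zero_le_one.trans (le_max_left _ _))
    · rw [h1 p a, norm_zero]; exact max_le (le_max_left _ _) (zero_le_one.trans (le_max_left _ _))
  obtain ⟨Φ, c1, c2, c3, c4⟩ := P265.H185.exists_global_flow _ hZ fun z =>
    P265.H185.exists_curve_of_bounded (hZ.of_le (by simp)) hb z
  have f1 : ∀ t y, (Φ t (0, y)).1 = t := fun t y => by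
    have d : ∀ s, HasDerivAt (fun s => (Φ s (0, y)).1 - s) 0 s := fun s => by
      have a : HasDerivAt (fun s => (Φ s (0, y)).1) 1 s :=
        (ContinuousLinearMap.fst ℝ ℝ E).hasFDerivAt.comp_hasDerivAt s (c3 s (0, y))
      have := a.sub (hasDerivAt_id s)
      rw [sub_self] at this
      exact this
    have := is_const_of_deriv_eq_zero (fun s => (d s).differentiableAt) (fun s => (d s).deriv) t 0
    rw [c2] at this
    simpa [sub_eq_zero] using this
  have fx : ∀ s y, y ∉ K → Φ s (0, y) = (s, y) := fun s y hy => by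
    refine (c4 (fun t => (t, y)) (fun t => ?_) s).symm
    rw [h0 (t, y) hy]
    exact (hasDerivAt_id t).prodMk (hasDerivAt_const t y)
  have back : ∀ s z, Φ (-s) (Φ s z) = z := fun s z => by
    have := c4 (fun t => Φ (t + s) z) (fun t => (c3 (t + s) z).comp_add_const t s) (-s)
    simp only [neg_add_cancel, zero_add, c2] at this
    exact this.symm
  have hF : ContDiff ℝ ∞ fun p : ℝ × E => (Φ p.1 (0, p.2)).2 :=
    (c1.comp (contDiff_fst.prodMk (contDiff_const.prodMk contDiff_snd))).snd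
  refine ⟨fun p => (Φ p.1 (0, p.2)).2, hF, fun y => by simp only [c2], fun s y hy => by
    simp only [fx s y hy], fun s y hy => ?_, fun p => ?_⟩
  · by_contra hz
    have a1 := fx s _ hz
    have a2 : Φ s (0, y) = (s, (Φ s (0, y)).2) := Prod.ext (f1 s y) rfl
    have a3 := back s (0, y)
    rw [a2, ← a1, back] at a3
    have a4 : (fun p : ℝ × E => (Φ p.1 (0, p.2)).2) (s, y) = y := (Prod.ext_iff.1 a3).2
    exact hz (by rw [a4]; exact hy)
  · have a1 : HasDerivAt (fun s => (Φ s (0, p.2)).2) (Y (Φ p.1 (0, p.2))) p.1 :=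
      (ContinuousLinearMap.snd ℝ ℝ E).hasFDerivAt.comp_hasDerivAt p.1 (c3 p.1 (0, p.2))
    have a2 : HasDerivAt (fun s : ℝ => (s, p.2)) ((1 : ℝ), (0 : E)) p.1 :=
      (hasDerivAt_id p.1).prodMk (hasDerivAt_const p.1 p.2)
    have a3 := (hF.differentiable (by simp) p).hasFDerivAt.comp_hasDerivAt p.1 a2
    have a4 : Φ p.1 (0, p.2) = (p.1, (Φ p.1 (0, p.2)).2) := Prod.ext (f1 _ _) rfl
    rw [← a4]
    exact a3.unique a1

/-- the argument of Moser -/
theorem moser_loc {O K : Set E} (hO : IsOpen O) (hK : IsCompact K) (hKO : K ⊆ O)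
    {om : E → E [⋀^Fin 2]→L[ℝ] ℝ} {η : E → E [⋀^Fin 1]→L[ℝ] ℝ} (hom : ContDiffOn ℝ ∞ om O)
    (hη : ContDiffOn ℝ ∞ η O) (hc : ∀ y ∈ O, extDeriv om y = 0) (h0 : ∀ y ∈ O, y ∉ K → η y = 0)
    (hn : ∀ r ∈ Icc (0 : ℝ) 1, ∀ y ∈ O, ∀ u, (∀ v, (om y + r • extDeriv η y) ![u, v] = 0) → u = 0) :
    ∃ F : ℝ × E → E, ContDiff ℝ ∞ F ∧ (∀ y, F (0, y) = y) ∧ (∀ s y, y ∉ K → F (s, y) = y) ∧
      (∀ s y, y ∈ K → F (s, y) ∈ K) ∧ ∀ s, ∀ y ∈ O,
        (om (F (s, y)) + Real.smoothTransition s • extDeriv η (F (s, y))).compContinuousLinearMap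
          (fderiv ℝ (fun z => F (s, z)) y) = om y := by
  classical
  set σ := Real.smoothTransition with hσ
  have sσ : ContDiff ℝ ∞ σ := Real.smoothTransition.contDiff
  have mσ : ∀ t, σ t ∈ Icc (0 : ℝ) 1 := fun t =>
    ⟨Real.smoothTransition.nonneg _, Real.smoothTransition.le_one _⟩
  have aom : ∀ {y}, y ∈ O → ContDiffAt ℝ ∞ om y := fun hy => hom.contDiffAt (hO.mem_nhds hy)
  have aη : ∀ {y}, y ∈ O → ContDiffAt ℝ ∞ η y := fun hy => hη.contDiffAt (hO.mem_nhds hy)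
  set A : ℝ × E → E [⋀^Fin 2]→L[ℝ] ℝ := fun p => om p.2 + σ p.1 • extDeriv η p.2 with hA
  set G : ℝ × E → E := fun p => -deriv σ p.1 • (A p).curryLeft.inverse (η p.2) with hG
  set Y : ℝ × E → E := fun p => if p.2 ∈ K then G p else 0 with hY
  have inv : ∀ p : ℝ × E, p.2 ∈ O → (A p).curryLeft.IsInvertible := fun p hp =>
    inv_curry (hn _ (mσ p.1) _ hp)
  have YG : ∀ p : ℝ × E, p.2 ∈ O → Y p = G p := fun p hp => by
    by_cases a : p.2 ∈ K
    · exact if_pos a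
    · simp only [hY, hG, if_neg a, h0 _ hp a, map_zero, smul_zero]
  have sY : ContDiff ℝ ∞ Y := by
    refine contDiff_iff_contDiffAt.2 fun p => ?_
    by_cases a : p.2 ∈ O
    · have a1 : ContDiffAt ℝ ∞ A p :=
        ((aom a).comp p contDiffAt_snd).add ((sσ.contDiffAt.comp p contDiffAt_fst).smul
          ((contDiffAt_extDeriv (aη a)).comp p contDiffAt_snd))
      have a2 : ContDiffAt ℝ ∞ (fun p => (A p).curryLeft) p :=
        curL_cd.contDiffAt.comp p a1
      have a3 := ((inv p a).contDiffAt_map_inverse (n := ∞)).comp p a2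
      have a4 : ContDiff ℝ ∞ (deriv σ) := sσ.iterate_deriv 1
      have a5 : ContDiffAt ℝ ∞ G p := (a4.contDiffAt.comp p contDiffAt_fst).neg.smul
        (a3.clm_apply ((aη a).comp p contDiffAt_snd))
      refine a5.congr_of_eventuallyEq ?_
      filter_upwards [continuousAt_snd.eventually (hO.mem_nhds a)] with q hq
      exact YG q hq
    · refine (contDiffAt_const (c := (0 : E))).congr_of_eventuallyEq ?_
      filter_upwards [continuousAt_snd.eventually
        (hK.isClosed.isOpen_compl.mem_nhds fun h => a (hKO h))] with q hq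
      exact if_neg hq
  obtain ⟨F, sF, f0, f1, f2, f3⟩ := exists_flow sY hK (fun p hp => if_neg hp) fun p hp => by
    simp only [hY, hG, hσ, deriv_st hp, neg_zero, zero_smul, ite_self]
  refine ⟨F, sF, f0, f1, f2, ?_⟩
  have FO : ∀ p : ℝ × E, p.2 ∈ O → F p ∈ O := fun p hp => by
    by_cases a : p.2 ∈ K
    · exact hKO (f2 p.1 p.2 a)
    · rw [show F p = p.2 from f1 p.1 p.2 a]; exact hp
  set α : ℝ × E → (ℝ × E) [⋀^Fin 2]→L[ℝ] ℝ :=
    fun p => (om (F p)).compContinuousLinearMap (fderiv ℝ F p) with hα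
  set β : ℝ × E → (ℝ × E) [⋀^Fin 1]→L[ℝ] ℝ :=
    fun p => (η (F p)).compContinuousLinearMap (fderiv ℝ F p) with hβ
  set γ : ℝ × E → (ℝ × E) [⋀^Fin 1]→L[ℝ] ℝ := fun p => σ p.1 • β p with hγ
  set Θ : ℝ × E → (ℝ × E) [⋀^Fin 2]→L[ℝ] ℝ := fun p => α p + extDeriv γ p with hΘ
  have sα : ∀ p : ℝ × E, p.2 ∈ O → ContDiffAt ℝ ∞ α p := fun p hp =>
    contDiffAt_pullback sF.contDiffAt (aom (FO p hp))
  have sβ : ∀ p : ℝ × E, p.2 ∈ O → ContDiffAt ℝ ∞ β p := fun p hp =>
    contDiffAt_pullback sF.contDiffAt (aη (FO p hp))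
  have sγ : ∀ p : ℝ × E, p.2 ∈ O → ContDiffAt ℝ ∞ γ p := fun p hp =>
    (sσ.contDiffAt.comp p contDiffAt_fst).smul (sβ p hp)
  have dα : ∀ p : ℝ × E, p.2 ∈ O → DifferentiableAt ℝ α p := fun p hp =>
    (sα p hp).differentiableAt (by simp)
  have dγ : ∀ p : ℝ × E, p.2 ∈ O → DifferentiableAt ℝ (extDeriv γ) p := fun p hp =>
    (contDiffAt_extDeriv (sγ p hp)).differentiableAt (by simp)
  have cΘ : ∀ p : ℝ × E, p.2 ∈ O → extDeriv Θ p = 0 := fun p hp => by
    rw [hΘ, extDeriv_fun_add (dα p hp) (dγ p hp), extDeriv_extDeriv_apply (sγ p hp) minS, hα,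
      extDeriv_pullback ((aom (FO p hp)).differentiableAt (by simp)) sF.contDiffAt minS,
      hc _ (FO p hp), add_zero]
    rfl
  have vΘ : ∀ p : ℝ × E, p.2 ∈ O → ∀ u v, Θ p ![u, v] =
      A (p.1, F p) ![fderiv ℝ F p u, fderiv ℝ F p v] + deriv σ p.1 *
        (u.1 * η (F p) ![fderiv ℝ F p v] - v.1 * η (F p) ![fderiv ℝ F p u]) := by
    intro p hp u v
    have a1 : HasFDerivAt (fun q : ℝ × E => σ q.1)
        ((ContinuousLinearMap.toSpanSingleton ℝ (deriv σ p.1)).comp (ContinuousLinearMap.fst ℝ ℝ E))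
        p := (sσ.differentiable (by simp) p.1).hasDerivAt.hasFDerivAt.comp p hasFDerivAt_fst
    have a2 := (a1.smul ((sβ p hp).differentiableAt (by simp)).hasFDerivAt).fderiv
    have a3 : ∀ a b, fderiv ℝ γ p a ![b] =
        σ p.1 * fderiv ℝ β p a ![b] + a.1 * deriv σ p.1 * η (F p) ![fderiv ℝ F p b] := by
      intro a b
      rw [show fderiv ℝ γ p = _ from a2, ← comp_one]
      simp [hβ]
    have a4 : extDeriv β p ![u, v] = extDeriv η (F p) ![fderiv ℝ F p u, fderiv ℝ F p v] := by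
      rw [hβ, extDeriv_pullback ((aη (FO p hp)).differentiableAt (by simp)) sF.contDiffAt minS,
        comp_two]
    rw [ext_one] at a4
    show α p ![u, v] + extDeriv γ p ![u, v] = om (F p) _ + σ p.1 * extDeriv η (F p) _ + _
    rw [ext_one, a3, a3, ← a4, hα, comp_two]
    ring
  have zΘ : ∀ p : ℝ × E, p.2 ∈ O → ∀ b : E, Θ p ![(1, 0), (0, b)] = 0 := by
    intro p hp b
    rw [vΘ p hp, f3, YG (p.1, F p) (FO p hp)]
    have a1 := DFunLike.congr_fun ((inv (p.1, F p) (FO p hp)).self_apply_inverse (η (F p)))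
      ![fderiv ℝ F p (0, b)]
    have a2 : A (p.1, F p) ![G (p.1, F p), fderiv ℝ F p (0, b)] =
        (A (p.1, F p)).curryLeft (G (p.1, F p)) ![fderiv ℝ F p (0, b)] := rfl
    rw [a2, hG]
    simp only [map_smul, ContinuousAlternatingMap.smul_apply, smul_eq_mul, a1]
    ring
  have hU : ∀ p : ℝ × E, p.2 ∈ O → ∀ᶠ q : ℝ × E in 𝓝 p, q.2 ∈ O := fun p hp =>
    continuousAt_snd.eventually (hO.mem_nhds hp)
  have dF : ∀ s y (a : E), fderiv ℝ (fun z => F (s, z)) y a = fderiv ℝ F (s, y) (0, a) := by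
    intro s y a
    have := (sF.differentiable (by simp) (s, y)).hasFDerivAt.comp y (hasFDerivAt_prodMk_right s y)
    rw [show fderiv ℝ (fun z => F (s, z)) y = _ from this.fderiv]
    rfl
  intro s y hy
  ext v
  have ev : v = ![v 0, v 1] := by funext i; fin_cases i <;> rfl
  rw [ev, comp_two, dF, dF]
  generalize v 0 = a
  generalize v 1 = b
  have d0 : ∀ t, HasDerivAt (fun t => Θ (t, y) ![(0, a), (0, b)]) 0 t := by
    intro t
    have dΘ : DifferentiableAt ℝ Θ (t, y) := (dα _ hy).add (dγ _ hy)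
    have a1 := ext_two dΘ (1, 0) (0, a) (0, b)
    have a2 : ∀ c : E, fderiv ℝ (fun q => Θ q ![(1, 0), (0, c)]) (t, y) = 0 := fun c => by
      have : (fun q => Θ q ![(1, 0), (0, c)]) =ᶠ[𝓝 (t, y)] fun _ => 0 := by
        filter_upwards [hU (t, y) hy] with q hq
        exact zΘ q hq c
      rw [this.fderiv_eq, fderiv_fun_const]
      rfl
    rw [cΘ _ hy, a2, a2] at a1
    have a3 : DifferentiableAt ℝ (fun q => Θ q ![(0, a), (0, b)]) (t, y) :=
      (ContinuousAlternatingMap.apply ℝ (ℝ × E) ℝ ![(0, a), (0, b)]).differentiableAt.comp _ dΘ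
    have a4 := a3.hasFDerivAt.comp_hasDerivAt t
      ((hasDerivAt_id t).prodMk (hasDerivAt_const t y))
    have a5 : fderiv ℝ (fun q => Θ q ![(0, a), (0, b)]) (t, y) (1, 0) = 0 := by
      simpa using a1.symm
    rw [a5] at a4
    exact a4
  have a1 := is_const_of_deriv_eq_zero (fun t => (d0 t).differentiableAt) (fun t => (d0 t).deriv) s 0
  rw [vΘ (s, y) hy, vΘ (0, y) hy, ← dF 0 y a, ← dF 0 y b] at a1
  simp only [f0, hA, hσ, Real.smoothTransition.zero, zero_smul, add_zero, zero_mul, sub_self,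
    mul_zero, fderiv_fun_id, ContinuousLinearMap.id_apply] at a1
  exact a1

end Vale.Agent.N247
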