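import Vale.Agent.N247.Pull
import Vale.Agent.N247.Moser

/-!
# P247, block N: a deformation can be replaced by one with a fixed form
-/

set_option linter.all false

open scoped BigOperators ContDiff Topology Manifold
open Set Filter

noncomputable section

namespace Vale.Agent.N247
open Vale.Agent.P204.T4 (Q ev ev_eq eb V4 L2)
open Vale.Agent.P204.Mfd (cE toE)
open Vale.Agent.P247.SCY Vale.Agent.P247.SCY.HS Vale.Agent.P247F
open Vale.Agent.P247M (pb dP SmF RF rf hs)
open Vale.Agent.P267.H175 (dF SmAt)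

theorem nondeg_of_Q {W : L2} (h : Q W W ≠ 0) {v : V4} (hv : ∀ w, ev W v w = 0) : v = 0 := by
  have r0 := hv (eb 0)
  have r1 := hv (eb 1)
  have r2 := hv (eb 2)
  have r3 := hv (eb 3)
  simp [ev_eq, eb] at r0 r1 r2 r3
  funext i
  refine mul_left_cancel₀ h ?_
  simp only [Q, Pi.zero_apply, mul_zero]
  fin_cases i
  · show _ * v 0 = 0
    linear_combination 2 * (W 5 * r1 - W 4 * r2 + W 3 * r3)
  · show _ * v 1 = 0
    linear_combination 2 * (-W 5 * r0 + W 2 * r2 - W 1 * r3)
  · show _ * v 2 = 0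
    linear_combination 2 * (W 4 * r0 - W 2 * r1 + W 0 * r3)
  · show _ * v 3 = 0
    linear_combination 2 * (-W 3 * r0 + W 1 * r1 - W 0 * r2)

theorem nondeg_alt {A : E4 [⋀^Fin 2]→L[ℝ] ℝ} (h : Q (cE A) (cE A) ≠ 0) (u : E4)
    (hu : ∀ v, A ![u, v] = 0) : u = 0 := by
  have := nondeg_of_Q h (v := toE.symm u) fun w => by
    rw [ev_cE, toE.apply_symm_apply]; exact hu _
  rw [← toE.apply_symm_apply u, this, map_zero]

variable {X : Type} [TopologicalSpace X] [ChartedSpace E4 X] {μ : Form X 4} {j : Fin 3}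

/-- a compact set in an open set which is convex in a chart -/
structure Box (e : OpenPartialHomeomorph X E4) (V K : Set X) : Prop where
  atl : e ∈ atlas E4 X
  opn : IsOpen V
  sub : V ⊆ e.source
  cvx : Convex ℝ (e '' V)
  cpt : IsCompact K
  ins : K ⊆ V

open Classical in
/-- a family of maps of the chart, extended by the identity -/
def ext (e : OpenPartialHomeomorph X E4) (F : ℝ × E4 → E4) (s : ℝ) (x : X) : X :=
  if x ∈ e.source then e.symm (F (s, e x)) else x

theorem Hyp_pos {w : Fin 3 → Form X 2} (h : ∀ x, (Qm μ w x).PosDef) (i : Fin 3) (x : X) :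
    0 < quot μ (w i) (w i) x := by
  have : 0 < quot μ (w i) (w i) x / 2 := (h x).diag_pos (i := i)
  linarith

variable [IsManifold (𝓡 4) ∞ X] [CompactSpace X] [T2Space X]
variable {e : OpenPartialHomeomorph X E4} {V K : Set X}

theorem exact_pl_sub (B : Box e V K) {ψ : X → X} (hψ : ContMDiff (𝓡 4) (𝓡 4) ∞ ψ)
    (h0 : ∀ x, x ∉ K → ψ x = x) (h1 : ∀ x ∈ K, ψ x ∈ K) {α : Form X 2} (sα : Smooth α)
    (cα : Closed α) : Exact fun x => pl ψ α x - α x := by
  obtain ⟨β, b1, b2⟩ := P247M.exists_prim2 B.atl B.opn B.sub B.cvx (a := rf α)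
    (fun x _ => P247M.smooth_iff.1 sα x) fun x _ => (P247M.closed_iff sα).1 cα x
  have ev : ∀ x, x ∉ K → ψ =ᶠ[𝓝 x] id := fun x hx => by
    filter_upwards [B.cpt.isClosed.isOpen_compl.mem_nhds hx] with y hy
    exact h0 y hy
  have z : ∀ x, x ∉ K → ∀ᶠ y in 𝓝 x, (rf (pl ψ (hs β)) - β) y = 0 := fun x hx => by
    filter_upwards [B.cpt.isClosed.isOpen_compl.mem_nhds hx] with y hy
    exact sub_eq_zero.2 (pl_of_ev (ev y hy) (hs β))
  refine P247M.exact_iff.2 ⟨rf (pl ψ (hs β)) - β, fun x => ?_, funext fun x => ?_⟩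
  · by_cases hx : x ∈ K
    · exact P247M.smAt_sub (smAt_pl hψ (α := hs β) (b1 _ (B.ins (h1 x hx)))).1 (b1 _ (B.ins hx))
    · exact P247M.smAt_of_zero (z x hx)
  · show _ = rf (pl ψ α) x - rf α x
    by_cases hx : x ∈ K
    · have a := smAt_pl hψ (α := hs β) (b1 _ (B.ins (h1 x hx)))
      rw [P247M.dF_sub a.1 (b1 _ (B.ins hx)), a.2, b2 _ (B.ins hx), rf_pl, rf_pl,
        ← b2 _ (B.ins (h1 x hx))]
      rfl
    · rw [P247M.dF_of_zero (z x hx), pl_of_ev (ev x hx), sub_self]

theorem famC_pl {ψ : ℝ → X → X} (h0 : ∀ s, ContMDiff (𝓡 4) (𝓡 4) ∞ (ψ s))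
    (h : ∀ e ∈ atlas E4 X, ContMDiffOn 𝓘(ℝ, ℝ × E4) (𝓡 4) ∞
      (fun p : ℝ × E4 => ψ p.1 (e.symm p.2)) (univ ×ˢ e.target))
    {α : Form X 2} (sα : Smooth α) : FamC fun s => pl (ψ s) α := by
  intro e he p hp
  have hU : IsOpen ((univ : Set ℝ) ×ˢ e.target) := isOpen_univ.prod e.open_target
  have a1 := P267.H175.contDiffAt_comp_alt
    (P247M.contDiffAt_pb hU (h e he) hp (P247M.smooth_iff.1 sα _))
    (contDiffAt_const (c := ContinuousLinearMap.inr ℝ ℝ E4))
  refine a1.continuousAt.continuousWithinAt.congr_of_mem (fun q hq => ?_) hp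
  rw [loc_pl he hq.2 ((h0 _ _).mdifferentiableAt (by simp))]
  have a2 : dP (fun z => ψ q.1 (e.symm z)) q.2 =
      (dP (fun p : ℝ × E4 => ψ p.1 (e.symm p.2)) q).comp (ContinuousLinearMap.inr ℝ ℝ E4) := by
    have a3 := (hasFDerivAt_prodMk_right (𝕜 := ℝ) q.1 q.2).hasMFDerivAt
    have a4 := (P247M.param_diff hU (h e he) hq).hasMFDerivAt
    exact (HasMFDerivAt.comp q.2 (g := fun p : ℝ × E4 => ψ p.1 (e.symm p.2))
      (f := fun z => (q.1, z)) a4 a3).mfderiv
  unfold pb
  rw [a2]
  rfl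

/-- one move supported in a chart -/
theorem rl_loc (hμ : Volume μ) (B : Box e V K) {a b : Fin 3 → Form X 2} (hs' : Seg μ a b)
    (hne : ∀ i, i ≠ j → b i = a i) {θ : RF X 1} (sθ : ∀ x, SmAt θ x) (zθ : ∀ x, x ∉ K → θ x = 0)
    (hθ : ∀ x, rf (b j) x = rf (a j) x + dF θ x) : Rl μ j a b := by
  have he := B.atl
  have Ks : K ⊆ e.source := B.ins.trans B.sub
  have cK : IsCompact (e '' K) := B.cpt.image_of_continuousOn (e.continuousOn.mono Ks)
  have nK : ∀ x ∈ e.source, x ∉ K → e x ∉ e '' K := by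
    rintro x hx h ⟨z, hz, h1⟩
    exact h (e.injOn (Ks hz) hx h1 ▸ hz)
  have ll : ∀ r, ∀ y ∈ e.target, loc e (lin a b r j) y =
      loc e (a j) y + r • extDeriv (loc e (hs θ)) y := by
    intro r y hy
    have a1 : rf (lin a b r j) = rf (a j) + r • dF θ := by
      funext x
      show rf (a j) x + r • (rf (b j) x - rf (a j) x) = rf (a j) x + r • dF θ x
      rw [hθ, add_sub_cancel_left]
    rw [P247M.extDeriv_loc (α := hs θ) he hy (sθ _), P247M.loc_eq he _ hy, P247M.loc_eq he _ hy, a1]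
    rfl
  obtain ⟨F, sF, f0, f1, f2, f3⟩ := moser_loc (om := loc e (a j)) (η := loc e (hs θ))
    e.open_target cK
    (by rintro _ ⟨x, hx, rfl⟩; exact e.map_source (Ks hx)) (hs'.hw.smooth j e he)
    ((P247M.smooth_iff (α := hs θ)).2 sθ e he) (hs'.hw.closed j e he)
    (fun y hy h => P247M.pb_of_zero (P := e.symm) (α := hs θ)
      (zθ _ fun h1 => h ⟨_, h1, e.right_inv hy⟩))
    (fun r hr y hy => by
      rw [← ll r y hy]
      refine nondeg_alt fun h0 => ?_
      have := Hyp_pos (hs'.pos r hr) j (e.symm y)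
      rw [quot_loc μ _ _ he hy, h0, zero_div] at this
      exact lt_irrefl _ this)
  set ψ := ext e F with hψ
  have p0 : ∀ s, ∀ x ∈ e.source, ψ s x = e.symm (F (s, e x)) := fun s x hx => if_pos hx
  have p1 : ∀ s x, x ∉ K → ψ s x = x := fun s x hx => by
    by_cases h : x ∈ e.source
    · rw [p0 s x h, f1 s _ (nK x h hx), e.left_inv h]
    · exact if_neg h
  have p2 : ∀ s, ∀ x ∈ K, ψ s x ∈ K := fun s x hx => by
    obtain ⟨z, hz, h⟩ := f2 s _ ⟨x, hx, rfl⟩
    rw [p0 s x (Ks hx), ← h, e.left_inv (Ks hz)]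
    exact hz
  have p3 : ∀ s, ∀ y ∈ e.target, F (s, y) ∈ e.target := fun s y hy => by
    by_cases h : y ∈ e '' K
    · obtain ⟨z, hz, h⟩ := f2 s _ h
      rw [← h]; exact e.map_source (Ks hz)
    · rw [f1 s y h]; exact hy
  have p4 : ∀ {EM M : Type} [NormedAddCommGroup EM] [NormedSpace ℝ EM] [TopologicalSpace M]
      [ChartedSpace EM M] {τ : M → ℝ} {P : M → X} {p : M},
      ContMDiffAt 𝓘(ℝ, EM) 𝓘(ℝ, ℝ) ∞ τ p → ContMDiffAt 𝓘(ℝ, EM) (𝓡 4) ∞ P p →
      ContMDiffAt 𝓘(ℝ, EM) (𝓡 4) ∞ (fun q => ψ (τ q) (P q)) p := by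
    intro EM M _ _ _ _ τ P p hτ hP
    by_cases h : P p ∈ e.source
    · have a1 := ((cmd_chart he).contMDiffAt (e.open_source.mem_nhds h)).comp p hP
      have a2 := sF.contMDiff.contMDiffAt.comp p (hτ.prodMk_space a1)
      have a3 := ((cmd_symm he).contMDiffAt
        (e.open_target.mem_nhds (p3 (τ p) _ (e.map_source h)))).comp p a2
      refine a3.congr_of_eventuallyEq ?_
      filter_upwards [hP.continuousAt.eventually (e.open_source.mem_nhds h)] with q hq
      exact p0 _ _ hq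
    · refine hP.congr_of_eventuallyEq ?_
      filter_upwards [hP.continuousAt.eventually
        (B.cpt.isClosed.isOpen_compl.mem_nhds fun h1 => h (Ks h1))] with q hq
      exact p1 _ _ hq
  have sψ : ∀ s, ContMDiff (𝓡 4) (𝓡 4) ∞ (ψ s) := fun s x =>
    p4 (EM := E4) (M := X) (τ := fun _ => s) (P := id) contMDiffAt_const contMDiffAt_id
  have sψ' : ∀ e' ∈ atlas E4 X, ContMDiffOn 𝓘(ℝ, ℝ × E4) (𝓡 4) ∞
      (fun p : ℝ × E4 => ψ p.1 (e'.symm p.2)) (univ ×ˢ e'.target) := fun e' he' p hp =>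
    (p4 (EM := ℝ × E4) (M := ℝ × E4) (τ := Prod.fst) (P := fun p => e'.symm p.2)
      contDiff_fst.contMDiff.contMDiffAt
      (((cmd_symm he').contMDiffAt (e'.open_target.mem_nhds hp.2)).comp p
        contDiff_snd.contMDiff.contMDiffAt)).contMDiffWithinAt
  set σ := Real.smoothTransition with hσ
  have mσ : ∀ t, σ t ∈ Icc (0 : ℝ) 1 := fun t =>
    ⟨Real.smoothTransition.nonneg _, Real.smoothTransition.le_one _⟩
  have fix : ∀ s, pl (ψ s) (lin a b (σ s) j) = a j := by
    intro s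
    refine P247M.rf_inj (funext fun x => ?_)
    by_cases h : x ∈ K
    · have hx := Ks h
      have hy := e.map_source hx
      have a1 : (fun z => e (ψ s (e.symm z))) =ᶠ[𝓝 (e x)] fun z => F (s, z) := by
        filter_upwards [e.open_target.mem_nhds hy] with z hz
        rw [p0 s _ (e.map_target hz), e.right_inv hz, e.right_inv (p3 s z hz)]
      refine P267.H175.loc_inj he hx ?_
      rw [← P247M.loc_eq he _ hy, ← P247M.loc_eq he _ hy,
        loc_pl he hy ((sψ _ _).mdifferentiableAt (by simp)),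
        P247M.pb_chart' he (P := fun z => ψ s (e.symm z)) (((sψ s _).mdifferentiableAt (by simp)).comp _
          (P204.Mfd.mdiff_symm he hy)) (by
            show ψ s (e.symm (e x)) ∈ e.source
            rw [e.left_inv hx]; exact Ks (p2 s x h)), ← f3 s _ hy, ← ll _ _ (p3 s _ hy),
        ← a1.fderiv_eq, ← a1.eq_of_nhds]
    · have a1 : ψ s =ᶠ[𝓝 x] id := by
        filter_upwards [B.cpt.isClosed.isOpen_compl.mem_nhds h] with y hy
        exact p1 s y hy
      have a2 : dF θ x = 0 := P247M.dF_of_zero (by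
        filter_upwards [B.cpt.isClosed.isOpen_compl.mem_nhds h] with y hy
        exact zθ y hy)
      rw [pl_of_ev a1]
      show rf (a j) x + σ s • (rf (b j) x - rf (a j) x) = rf (a j) x
      rw [hθ, a2, add_zero, sub_self, smul_zero, add_zero]
  have op : ∀ s, OP μ (ψ s) := fun s => ⟨sψ s, fun x => by
    have a1 := quot_pl hμ (ψ s) (lin a b (σ s) j) (lin a b (σ s) j) x
    rw [fix] at a1
    have a2 := Hyp_pos hs'.hw.posDef j x
    rw [a1] at a2
    exact (pos_iff_pos_of_mul_pos a2).2 (Hyp_pos (hs'.pos _ (mσ s)) j _)⟩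
  have w0 : (fun i => pl (ψ 0) (lin a b (σ 0) i)) = a := by
    have a1 : ψ 0 = id := funext fun x => by
      by_cases h : x ∈ e.source
      · rw [p0 0 x h, f0, e.left_inv h]; rfl
      · exact if_neg h
    rw [a1, hσ, Real.smoothTransition.zero, lin_zero]
    exact funext fun i => pl_id _
  have key := fx_of_fam (j := j) hμ (W := fun s i => pl (ψ s) (lin a b (σ s) i))
    (fun i => FamC.seg (famC_pl sψ sψ' (hs'.hw.smooth i)) (famC_pl sψ sψ' (hs'.hv.smooth i))
      Real.smoothTransition.continuous)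
    (fun s => (op s).hyper hμ (hs'.hyper (mσ s))) (fun s i => by
      rw [w0]
      by_cases hi : i = j
      · subst hi
        simp only [fix]
        exact exact_refl _
      · simp only [lin_of_eq (hne i hi)]
        exact exact_pl_sub B (sψ s) (p1 s) (p2 s) (hs'.hw.smooth i) (hs'.hw.closed i))
    fun s => (fix s).trans (fix 0).symm
  refine ⟨ψ 1, op 1, ?_⟩
  rw [w0] at key
  simp only [hσ, Real.smoothTransition.one, lin_one] at key
  exact key

/-- the exterior derivative of a one-form -/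
def d1 (θ : RF X 1) : RF X 2 := dF θ

theorem d1_smul (c : ℝ) (θ : RF X 1) (x : X) : d1 (c • θ) x = c • d1 θ x :=
  P267.H175.dF_smul c θ x

theorem smAt_d1 {θ : RF X 1} (h : ∀ x, SmAt θ x) (x : X) : SmAt (d1 θ) x := P247M.smAt_dF' h x

theorem dF_d1 {θ : RF X 1} (h : ∀ x, SmAt θ x) (x : X) : dF (d1 θ) x = 0 := P247M.dF_dF' h x

/-- one-forms with small support -/
def Small (θ : RF X 1) : Prop := (∀ x, SmAt θ x) ∧
  ∃ (e : OpenPartialHomeomorph X E4) (V K : Set X), Box e V K ∧ ∀ x, x ∉ K → θ x = 0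

/-- add a combination of exact forms in the slot `j` -/
def ad (w : Fin 3 → Form X 2) (j : Fin 3) {ι : Type} [Fintype ι] (θ : ι → RF X 1) (c : ι → ℝ) :
    Fin 3 → Form X 2 :=
  fun i x => w i x + (if i = j then (1 : ℝ) else 0) • hs (∑ n, c n • d1 (θ n)) x

theorem rf_ad (w : Fin 3 → Form X 2) {ι : Type} [Fintype ι] (θ : ι → RF X 1) (c : ι → ℝ) (i : Fin 3)
    (x : X) : rf (ad w j θ c i) x =
      rf (w i) x + (if i = j then (1 : ℝ) else 0) • ∑ n, c n • d1 (θ n) x := by
  show rf (w i) x + (if i = j then (1 : ℝ) else 0) • (∑ n, c n • d1 (θ n)) x = _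
  rw [Finset.sum_apply]
  rfl

theorem frag (hμ : Volume μ) {w : Fin 3 → Form X 2} (hw : Hypersymplectic μ w) {ι : Type}
    [Fintype ι] {θ : ι → RF X 1} (hθ : ∀ n, Small (θ n))
    (H : ∀ c : ι → ℝ, (∀ n, c n ∈ Icc (0 : ℝ) 1) → ∀ x, (Qm μ (ad w j θ c) x).PosDef) :
    Rl μ j w (ad w j θ 1) ∧ Rl μ j (ad w j θ 1) w := by
  classical
  have sm : ∀ (c : ι → ℝ) x, SmAt (∑ n, c n • d1 (θ n)) x := fun c x =>
    P247M.smAt_sum _ fun n _ => (smAt_d1 (hθ n).1 x).smul _
  have hy : ∀ c : ι → ℝ, (∀ n, c n ∈ Icc (0 : ℝ) 1) → Hypersymplectic μ (ad w j θ c) := by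
    intro c hc
    have s1 : Smooth (hs (∑ n, c n • d1 (θ n))) := P247M.smooth_iff.2 (sm c)
    have s2 : Closed (hs (∑ n, c n • d1 (θ n))) := (P247M.closed_iff s1).2 fun x => by
      show dF (∑ n, c n • d1 (θ n)) x = 0
      rw [P247M.dF_sum _ fun n _ => (smAt_d1 (hθ n).1 x).smul _]
      refine Finset.sum_eq_zero fun n _ => ?_
      rw [P267.H175.dF_smul, dF_d1 (hθ n).1, smul_zero]
    exact ⟨fun i => smooth_add (hw.smooth i) (smooth_smul s1 _), fun i =>
      closed_add (hw.smooth i) (smooth_smul s1 _) (hw.closed i) (closed_smul s2 _), H c hc⟩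
  have mv : ∀ (c c' : ι → ℝ) (m : ι), (∀ n, c n ∈ Icc (0 : ℝ) 1) → (∀ n, c' n ∈ Icc (0 : ℝ) 1) →
      (∀ n, n ≠ m → c' n = c n) → Rl μ j (ad w j θ c) (ad w j θ c') := by
    intro c c' m hc hc' hm
    obtain ⟨s1, e, V, K, B, s2⟩ := hθ m
    refine rl_loc hμ B ⟨hy c hc, hy c' hc', fun s hs x => ?_⟩ (fun i hi => ?_)
      (θ := (c' m - c m) • θ m) (fun x => (s1 x).smul _) (fun x hx => ?_) fun x => ?_
    · have e : lin (ad w j θ c) (ad w j θ c') s = ad w j θ fun n => c n + s * (c' n - c n) := by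
        funext i
        refine P247M.rf_inj (funext fun x => ?_)
        show rf (ad w j θ c i) x + s • (rf (ad w j θ c' i) x - rf (ad w j θ c i) x) = _
        have a : ∑ n, (c n + s * (c' n - c n)) • d1 (θ n) x = ∑ n, c n • d1 (θ n) x +
            s • (∑ n, c' n • d1 (θ n) x - ∑ n, c n • d1 (θ n) x) := by
          rw [← Finset.sum_sub_distrib, Finset.smul_sum, ← Finset.sum_add_distrib]
          exact Finset.sum_congr rfl fun n _ => by module
        rw [rf_ad, rf_ad, rf_ad, a]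
        module
      rw [e]
      refine H _ (fun i => ⟨?_, ?_⟩) x
      · nlinarith [(hc i).1, (hc' i).1, hs.1, hs.2, mul_nonneg hs.1 (hc' i).1,
          mul_nonneg (sub_nonneg.2 hs.2) (hc i).1]
      · nlinarith [(hc i).2, (hc' i).2, hs.1, hs.2, mul_nonneg hs.1 (sub_nonneg.2 (hc' i).2),
          mul_nonneg (sub_nonneg.2 hs.2) (sub_nonneg.2 (hc i).2)]
    · refine P247M.rf_inj (funext fun x => ?_)
      rw [rf_ad, rf_ad, if_neg hi, zero_smul, zero_smul]
    · show (c' m - c m) • θ m x = 0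
      rw [s2 x hx, smul_zero]
    · show _ = _ + d1 _ x
      rw [rf_ad, rf_ad, if_pos rfl, one_smul, one_smul, d1_smul, add_assoc]
      congr 1
      rw [← sub_eq_iff_eq_add', ← Finset.sum_sub_distrib, Finset.sum_eq_single m
        (fun n _ hn => by rw [hm n hn, sub_self]) fun h => absurd (Finset.mem_univ m) h]
      module
  have m01 : ∀ (S : Finset ι) (n : ι), (if n ∈ S then (1 : ℝ) else 0) ∈ Icc (0 : ℝ) 1 := by
    intro S n
    split_ifs <;> simp
  have key : ∀ S : Finset ι, Rl μ j w (ad w j θ fun n => if n ∈ S then 1 else 0) ∧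
      Rl μ j (ad w j θ fun n => if n ∈ S then 1 else 0) w := by
    intro S
    induction S using Finset.induction_on with
    | empty =>
      have e : (ad w j θ fun n => if n ∈ (∅ : Finset ι) then 1 else 0) = w := by
        funext i
        refine P247M.rf_inj (funext fun x => ?_)
        simp [rf_ad]
      rw [e]
      exact ⟨Fx.rl hμ Relation.ReflTransGen.refl, Fx.rl hμ Relation.ReflTransGen.refl⟩
    | insert m S _ ih =>
      exact ⟨ih.1.trans hμ (mv _ _ m (m01 _) (m01 _) fun n hn => by simp [hn]),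
        (mv _ _ m (m01 _) (m01 _) fun n hn => by simp [hn]).trans hμ ih.2⟩
  have := key Finset.univ
  simp only [Finset.mem_univ, if_true] at this
  exact this

theorem exists_small {η : RF X 1} (hη : ∀ x, SmAt η x) :
    ∃ (n : ℕ) (θ : Fin n → RF X 1), (∀ m, Small (θ m)) ∧ ∑ m, θ m = η := by
  have h1 : ∀ x : X, ∃ V : Set X, IsOpen V ∧ x ∈ V ∧ V ⊆ (chartAt E4 x).source ∧
      Convex ℝ (chartAt E4 x '' V) := by
    intro x
    set e := chartAt E4 x
    obtain ⟨r, hr, h⟩ := Metric.isOpen_iff.1 e.open_target _ (mem_chart_target E4 x)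
    refine ⟨e.source ∩ e ⁻¹' Metric.ball (e x) r, e.isOpen_inter_preimage Metric.isOpen_ball,
      ⟨mem_chart_source E4 x, Metric.mem_ball_self hr⟩, inter_subset_left, ?_⟩
    rw [e.image_source_inter_eq', e.target_inter_inv_preimage_preimage, inter_eq_right.2 h]
    exact convex_ball _ _
  choose V h1 h2 h3 h4 using h1
  obtain ⟨t, ht⟩ := isCompact_univ.elim_finite_subcover V h1 fun x _ => mem_iUnion.2 ⟨x, h2 x⟩
  set p : Fin t.card → X := fun m => (t.equivFin.symm m : X) with hp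
  obtain ⟨f, hf⟩ := SmoothPartitionOfUnity.exists_isSubordinate (𝓡 4) isClosed_univ
    (fun m => V (p m)) (fun m => h1 _) fun x hx => by
      obtain ⟨y, hy, h⟩ := mem_iUnion₂.1 (ht hx)
      exact mem_iUnion.2 ⟨t.equivFin ⟨y, hy⟩, by simpa [hp] using h⟩
  refine ⟨_, fun m x => f m x • η x, fun m => ⟨fun x =>
    P247M.smAt_fsmul ((f m).contMDiff x) (hη x), chartAt E4 (p m), V (p m), tsupport (f m),
    ⟨chart_mem_atlas _ _, h1 _, h3 _, h4 _, (isClosed_tsupport _).isCompact, hf m⟩,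
    fun x hx => ?_⟩, funext fun x => ?_⟩
  · show f m x • η x = 0
    rw [image_eq_zero_of_notMem_tsupport hx, zero_smul]
  · rw [Finset.sum_apply, ← Finset.sum_smul, ← finsum_eq_sum_of_fintype,
      f.sum_eq_one (mem_univ x), one_smul]

/-- a segment which changes only the slot `j` -/
theorem rl_slot (hμ : Volume μ) {a b : Fin 3 → Form X 2} (h : Seg μ a b)
    (hne : ∀ i, i ≠ j → b i = a i) (hc : Exact fun x => b j x - a j x) : Rl μ j a b := by
  obtain ⟨η, s1, s2⟩ := P247M.exact_iff.1 hc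
  obtain ⟨n, θ, t1, t2⟩ := exists_small s1
  have s3 : ∀ x, ∑ m, d1 (θ m) x = rf (b j) x - rf (a j) x := fun x => by
    have a := P247M.dF_sum Finset.univ (x := x) fun m _ => (t1 m).1 x
    rw [t2, s2] at a
    exact a.symm
  haveI : PreconnectedSpace (Icc (0 : ℝ) 1) := Subtype.preconnectedSpace isPreconnected_Icc
  have key := PreconnectedSpace.induction₂' (α := Icc (0 : ℝ) 1)
    (fun p q => Rl μ j (lin a b p) (lin a b q)) (fun s => ?_)
    ⟨fun _ _ _ h h' => h.trans hμ h'⟩ ⟨0, by simp⟩ ⟨1, by simp⟩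
  · simpa only [lin_zero, lin_one] using key
  have hw := h.hyper s.2
  have h1 := qm_eventually hμ (K := Fin n → Icc (0 : ℝ) 1) (P := Icc (0 : ℝ) 1)
    (W := fun z => ad (lin a b s) j θ fun m => (z.2 m : ℝ) * ((z.1 : ℝ) - s)) (fun i => ?_) (p0 := s)
    (fun k x => by
      have : (ad (lin a b s) j θ fun m => (k m : ℝ) * ((s : ℝ) - s)) = lin a b s := by
        funext i
        refine P247M.rf_inj (funext fun x => ?_)
        simp [rf_ad]
      simp only [this]
      exact hw.posDef x)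
  · filter_upwards [h1] with t ht
    have e1 : ∀ c : Fin n → ℝ, ad (lin a b s) j (fun m => ((t : ℝ) - s) • θ m) c =
        ad (lin a b s) j θ fun m => c m * ((t : ℝ) - s) := fun c => by
      funext i
      refine P247M.rf_inj (funext fun x => ?_)
      simp only [rf_ad, d1_smul, mul_smul]
    have e2 : ad (lin a b s) j (fun m => ((t : ℝ) - s) • θ m) 1 = lin a b t := by
      funext i
      refine P247M.rf_inj (funext fun x => ?_)
      simp only [rf_ad, d1_smul, Pi.one_apply, one_smul, ← Finset.smul_sum, s3]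
      by_cases hi : i = j
      · rw [if_pos hi, hi]
        show rf (a j) x + (s : ℝ) • (rf (b j) x - rf (a j) x) + _ =
          rf (a j) x + (t : ℝ) • (rf (b j) x - rf (a j) x)
        module
      · rw [if_neg hi, zero_smul, add_zero, lin_of_eq (hne i hi), lin_of_eq (hne i hi)]
    have := frag (j := j) hμ hw (θ := fun m => ((t : ℝ) - s) • θ m) (fun m => by
      obtain ⟨a1, e, V, K, B, a2⟩ := t1 m
      exact ⟨fun x => (a1 x).smul _, e, V, K, B, fun x hx => by
        show ((t : ℝ) - s) • θ m x = 0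
        rw [a2 x hx, smul_zero]⟩) fun c hc x => by
      rw [e1]
      exact ht (fun m => ⟨c m, hc m⟩) x
    rwa [e2] at this
  · refine FamC.add (famC_const (cont_of_smooth (hw.smooth i))) (FamC.smul ?_ continuous_const)
    have e : ∀ S : Finset (Fin n), FamC fun z : Icc (0 : ℝ) 1 × (Fin n → Icc (0 : ℝ) 1) =>
        (hs (∑ m ∈ S, ((z.2 m : ℝ) * ((z.1 : ℝ) - s)) • d1 (θ m)) : Form X 2) := by
      intro S
      induction S using Finset.induction_on with
      | empty => exact famC_const (cont_of_smooth (P247M.smooth_iff.2 P267.H175.smAt_zero))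
      | insert m S hm ih =>
        simp only [Finset.sum_insert hm]
        exact FamC.add (FamC.smul (famC_const (cont_of_smooth (α := hs (d1 (θ m)))
          (P247M.smooth_iff.2 (smAt_d1 (t1 m).1)))) (by fun_prop)) ih
    exact e Finset.univ

/-- a short segment, first the slot `j`, then the others -/
theorem rl_of_fam (hμ : Volume μ) {W : ℝ → Fin 3 → Form X 2} (hW : ∀ i, FamC fun p => W p i)
    (hy : ∀ p, Hypersymplectic μ (W p)) (hc : ∀ p, Coh (W 0) (W p)) : Rl μ j (W 0) (W 1) := by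
  refine PreconnectedSpace.induction₂' (fun p q => Rl μ j (W p) (W q)) (fun s => ?_)
    ⟨fun _ _ _ h h' => h.trans hμ h'⟩ 0 1
  have h1 := qm_eventually hμ (K := Fin 3 → Icc (0 : ℝ) 1)
    (W := fun z => mix (W s) (W z.1) fun i => (z.2 i : ℝ)) (fun i =>
      FamC.seg (famC_const (cont_of_smooth ((hy s).smooth i))) ((hW i).comp continuous_fst)
        (c := fun z : ℝ × (Fin 3 → Icc (0 : ℝ) 1) => (z.2 i : ℝ)) (by fun_prop)) (p0 := s)
    (fun k x => by
      have : (mix (W s) (W s) fun i => (k i : ℝ)) = W s := by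
        funext i x; simp only [mix, sub_self, smul_zero, add_zero]
      simp only [this]
      exact (hy s).posDef x)
  filter_upwards [h1] with t ht
  have hst : Coh (W s) (W t) := (hc s).symm.trans (hc t)
  have H : ∀ l : Fin 3 → ℝ, (∀ i, l i ∈ Icc (0 : ℝ) 1) → ∀ x,
      (Qm μ (mix (W s) (W t) l) x).PosDef := fun l hl x => ht (fun i => ⟨l i, hl i⟩) x
  set m : Fin 3 → Form X 2 := fun i => if i = j then W t i else W s i with hm
  have mj : m j = W t j := if_pos rfl
  have mi : ∀ i, i ≠ j → m i = W s i := fun i hi => if_neg hi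
  have l1 : ∀ r, lin (W s) m r = mix (W s) (W t) fun i => if i = j then r else 0 := fun r => by
    funext i x
    by_cases hi : i = j <;> simp [lin, mix, hm, hi]
  have l2 : ∀ r, lin m (W t) r = mix (W s) (W t) fun i => if i = j then 1 else r := fun r => by
    funext i x
    by_cases hi : i = j <;> simp [lin, mix, hm, hi]
  have q1 : ∀ r ∈ Icc (0 : ℝ) 1, ∀ x, (Qm μ (lin (W s) m r) x).PosDef := fun r hr x => by
    rw [l1]
    exact H _ (fun i => by split_ifs <;> simp [hr.1, hr.2]) x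
  have hm' : Hypersymplectic μ m :=
    ⟨fun i => by simp only [hm]; split_ifs; exacts [(hy t).smooth i, (hy s).smooth i],
      fun i => by simp only [hm]; split_ifs; exacts [(hy t).closed i, (hy s).closed i],
      fun x => by have := q1 1 (by simp) x; rwa [lin_one] at this⟩
  have g1 : Seg μ (W s) m := ⟨hy s, hm', q1⟩
  have g2 : Seg μ m (W t) := ⟨hm', hy t, fun r hr x => by
    rw [l2]
    exact H _ (fun i => by split_ifs <;> simp [hr.1, hr.2]) x⟩
  have c1 : Coh (W s) m := coh_of_mvAt mi (by rw [mj]; exact hst j)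
  have c2 : Coh m (W t) := c1.symm.trans hst
  exact ⟨(rl_slot hμ g1 mi (c1 j)).trans hμ
      (Fx.rl hμ (Relation.ReflTransGen.single ⟨g2, c2, mj.symm⟩)),
    (Fx.rl hμ (Relation.ReflTransGen.single ⟨g2.symm, c2.symm, mj⟩)).trans hμ
      (rl_slot hμ g1.symm (fun i hi => (mi i hi).symm) (c1.symm j))⟩

/-- a deformation to a hyperkaehler triple can be chosen with the form number `j` fixed -/
theorem fix_form (hμ : Volume μ) {w : Fin 3 → Form X 2} {W : ℝ → Fin 3 → Form X 2}
    (h : Deformation μ w W) (hk : P247X.Hyperkahler μ (W 1)) (j : Fin 3) :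
    ∃ v, Fx μ j w v ∧ P247X.Hyperkahler μ v := by
  have mσ : ∀ t, Real.smoothTransition t ∈ Icc (0 : ℝ) 1 := fun t =>
    ⟨Real.smoothTransition.nonneg _, Real.smoothTransition.le_one _⟩
  have := rl_of_fam (j := j) hμ (W := fun t => W (Real.smoothTransition t))
    (fun i => FamC.comp (A := fun t => W t i) (fun e he => (h.smooth i e he).continuousOn)
      Real.smoothTransition.continuous) (fun t => h.hyper _ (mσ t)) fun t i => by
      simp only [Real.smoothTransition.zero, h.start]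
      exact h.exact _ i
  simp only [Real.smoothTransition.zero, Real.smoothTransition.one, h.start] at this
  obtain ⟨ψ, h1, h2⟩ := this
  exact ⟨_, h2, h1.hk hμ hk⟩

end Vale.Agent.N247
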