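import Vale.Agent.N247.Defs
import Vale.Agent.N247.Vol
import Vale.Agent.P247I47.Tr

/-!
# P247, block N: the metric of a hyperkaehler triple
-/

set_option linter.all false

open scoped BigOperators ContDiff Topology Manifold
open Set Filter

noncomputable section

namespace Vale.Agent.N247

section alg

variable {E : Type} [NormedAddCommGroup E] [NormedSpace ℝ E]

/-- the quaternion relations -/
structure Quat (I J K : E →L[ℝ] E) : Prop where
  II : ∀ v, I (I v) = -v
  JJ : ∀ v, J (J v) = -v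
  KK : ∀ v, K (K v) = -v
  IJ : ∀ v, I (J v) = K v

theorem Quat.rot {I J K : E →L[ℝ] E} (h : Quat I J K) : Quat J K I := by
  refine ⟨h.JJ, h.KK, h.II, fun v => ?_⟩
  have a1 : ∀ v, I (K v) = -J v := fun v => by rw [← h.IJ, h.II]
  have a2 : ∀ v, K (J v) = -I v := fun v => by rw [← h.IJ, h.JJ, map_neg]
  have a3 := a1 (K v)
  rw [h.KK, map_neg] at a3
  exact (neg_injective a3).symm

theorem Quat.JI {I J K : E →L[ℝ] E} (h : Quat I J K) (v : E) : J (I v) = -K v := by
  rw [← h.rot.IJ, h.JJ]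

theorem hk_alg {G : E →L[ℝ] E →L[ℝ] ℝ} {I J K : E →L[ℝ] E} {A B C : E →L[ℝ] E →L[ℝ] E}
    (h : Quat I J K)
    (a1 : ∀ x u v, G (A x u) v = -G (A x v) u) (b1 : ∀ x u v, G (B x u) v = -G (B x v) u)
    (c1 : ∀ x u v, G (C x u) v = -G (C x v) u)
    (a2 : ∀ x u v, G (A x (I u)) v = G (A x u) (I v))
    (a3 : ∀ x u v, G (A x u) v + G (A u v) x + G (A v x) u = 0)
    (b3 : ∀ x u v, G (B x u) v + G (B u v) x + G (B v x) u = 0)
    (c3 : ∀ x u v, G (C x u) v + G (C u v) x + G (C v x) u = 0)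
    (c4 : ∀ x u v, G (C x u) v = G (A x (J u)) v - G (B x u) (I v))
    (b4 : ∀ x u v, G (B x u) v = G (C x (I u)) v - G (A x u) (K v)) (x u v : E) :
    G (A x u) v = 0 := by
  have II := h.II
  have JJ := h.JJ
  have KK := h.KK
  have IJ := h.IJ
  have JK := h.rot.IJ
  have KI := h.rot.rot.IJ
  have JI := h.JI
  have KJ := h.rot.JI
  have IK := h.rot.rot.JI
  have qk : ∀ x u v, G (A (I x) (I u)) v + G (A x u) v = 0 := by
    intro x u v
    have e0 := a3 x u v
    have e1 := a3 x (I u) (I v)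
    have e2 := a3 u (I v) (I x)
    have e3 := a3 v (I x) (I u)
    have e4 := a2 x u (I v)
    have e5 := a2 u v (I x)
    have e6 := a2 v x (I u)
    have e7 := a2 (I x) u v
    have e8 := a2 (I u) v x
    have e9 := a2 (I v) x u
    simp only [II, map_neg] at e4 e5 e6
    linarith
  have e0 := a2 x v (I u)
  have e1 := a3 (I u) (I v) x
  have e2 := b4 (I u) (I v) (K x)
  have e3 := b4 (I v) (I u) (K x)
  have e4 := c4 (K x) (I v) u
  have e5 := c3 (I v) (K x) u
  have e6 := b3 (K x) (I v) (I u)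
  have e7 := a2 (K x) u (J v)
  have e8 := b3 v u (K x)
  have e9 := c4 (K x) v (I u)
  have e10 := c3 (I u) (K x) v
  have e11 := c4 v (K x) (I u)
  have e12 := c4 u (K x) (I v)
  have e13 := qk (I x) (I v) u
  have e14 := a3 u (I x) (I v)
  have e15 := qk (I v) u (I x)
  simp only [II, IJ, IK, JI, JJ, JK, KI, KJ, KK, map_neg, ContinuousLinearMap.neg_apply] at e0 e1 e2 e3 e4 e5 e6 e7 e8 e9 e10 e11 e12 e13 e14 e15
  linarith [a1 x (I u) (I v), a1 x u v, a1 (I v) x (I u), b1 (I u) (I v) (K x), c1 (I u) v (K x),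
    c1 (I v) u (K x), c1 (K x) u (I v), a1 (K x) u (K v), c1 u (I v) (K x), a1 (K x) (I u) (J v),
    b1 v u (K x), c1 v (I u) (K x), a1 v (I x) (I u)]

/-- the covariant derivative of a field of endomorphisms -/
def cdE (J : E → E →L[ℝ] E) (Γ : E →L[ℝ] E →L[ℝ] E) (p : E) : E →L[ℝ] E →L[ℝ] E :=
  fderiv ℝ J p + ((ContinuousLinearMap.compL ℝ E E E).flip (J p)).comp Γ -
    (ContinuousLinearMap.compL ℝ E E E (J p)).comp Γ

theorem cdE_apply (J : E → E →L[ℝ] E) (Γ : E →L[ℝ] E →L[ℝ] E) (p x u : E) :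
    cdE J Γ p x u = fderiv ℝ J p x u + Γ x (J p u) - J p (Γ x u) := rfl

theorem fd_apply {F : Type} [NormedAddCommGroup F] [NormedSpace ℝ F] {A : E → E →L[ℝ] F}
    {u : E → E} {p : E} (hA : DifferentiableAt ℝ A p) (hu : DifferentiableAt ℝ u p) (x : E) :
    fderiv ℝ (fun y => A y (u y)) p x = fderiv ℝ A p x (u p) + A p (fderiv ℝ u p x) := by
  rw [(hA.hasFDerivAt.clm_apply hu.hasFDerivAt).fderiv]
  exact add_comm _ _

theorem fd_const {F : Type} [NormedAddCommGroup F] [NormedSpace ℝ F] {A : E → E →L[ℝ] F}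
    {p : E} (hA : DifferentiableAt ℝ A p) (u x : E) :
    fderiv ℝ (fun y => A y u) p x = fderiv ℝ A p x u := by
  rw [fd_apply hA (differentiableAt_const u)]
  simp

theorem fd_two {G : E → E →L[ℝ] E →L[ℝ] ℝ} {u v : E → E} {p : E} (hG : DifferentiableAt ℝ G p)
    (hu : DifferentiableAt ℝ u p) (hv : DifferentiableAt ℝ v p) (x : E) :
    fderiv ℝ (fun y => G y (u y) (v y)) p x = fderiv ℝ G p x (u p) (v p) +
      G p (fderiv ℝ u p x) (v p) + G p (u p) (fderiv ℝ v p x) := by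
  rw [fd_apply (hG.clm_apply hu) hv, fd_apply hG hu]
  rfl

theorem cdE_mul {A B C : E → E →L[ℝ] E} {p : E} (hA : DifferentiableAt ℝ A p)
    (hB : DifferentiableAt ℝ B p) (hC : DifferentiableAt ℝ C p)
    (h : ∀ᶠ y in 𝓝 p, ∀ v, A y (B y v) = C y v) (Γ : E →L[ℝ] E →L[ℝ] E) (x u : E) :
    cdE C Γ p x u = cdE A Γ p x (B p u) + A p (cdE B Γ p x u) := by
  have h1 : (fun y => A y (B y u)) =ᶠ[𝓝 p] fun y => C y u := h.mono fun y hy => hy u
  have h2 := DFunLike.congr_fun (h1.fderiv_eq (𝕜 := ℝ)) x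
  rw [fd_apply hA (hB.clm_apply (differentiableAt_const u)), fd_const hB, fd_const hC] at h2
  simp only [cdE_apply, map_add, map_sub, h.self_of_nhds, ← h2]
  abel

/-- the data of one Kaehler form near a point -/
structure KF (G : E → E →L[ℝ] E →L[ℝ] ℝ) (J : E → E →L[ℝ] E) (p : E) : Prop where
  dJ : DifferentiableAt ℝ J p
  form : ∃ a : E → E [⋀^Fin 2]→L[ℝ] ℝ, DifferentiableAt ℝ a p ∧ extDeriv a p = 0 ∧
    ∀ᶠ y in 𝓝 p, ∀ u v, a y ![u, v] = G y (J y u) v

variable {G : E → E →L[ℝ] E →L[ℝ] ℝ} {Γ : E →L[ℝ] E →L[ℝ] E} {p : E}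

theorem alt_swap (a : E [⋀^Fin 2]→L[ℝ] ℝ) (u v : E) : a ![u, v] = -a ![v, u] := by
  have h := a.toAlternatingMap.map_swap ![v, u] (i := 0) (j := 1) (by decide)
  have h2 : ![v, u] ∘ Equiv.swap (0 : Fin 2) 1 = ![u, v] := by
    funext i; fin_cases i <;> rfl
  rw [h2] at h
  exact h

theorem KF.rel {J : E → E →L[ℝ] E} (h : KF G J p) (dG : DifferentiableAt ℝ G p)
    (sG : ∀ u v, G p u v = G p v u) (sΓ : ∀ u v, Γ u v = Γ v u)
    (mΓ : ∀ x u v, fderiv ℝ G p x u v = G p (Γ x u) v + G p u (Γ x v)) :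
    (∀ u v, G p (J p u) v = -G p u (J p v)) ∧
    (∀ x u v, G p (cdE J Γ p x u) v = -G p (cdE J Γ p x v) u) ∧
    ∀ x u v, G p (cdE J Γ p x u) v + G p (cdE J Γ p u v) x + G p (cdE J Γ p v x) u = 0 := by
  obtain ⟨a, d1, d2, d3⟩ := h.form
  have s0 : ∀ u v, G p (J p u) v = -G p u (J p v) := fun u v => by
    rw [← d3.self_of_nhds, alt_swap, d3.self_of_nhds, sG]
  have k : ∀ x u v, G p (cdE J Γ p x u) v = fderiv ℝ (fun y => a y ![u, v]) p x
      - G p (J p u) (Γ x v) - G p (J p (Γ x u)) v := by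
    intro x u v
    have h1 : (fun y => a y ![u, v]) =ᶠ[𝓝 p] fun y => G y (J y u) v := d3.mono fun y hy => hy u v
    rw [h1.fderiv_eq, fd_two dG (h.dJ.clm_apply (differentiableAt_const u))
      (differentiableAt_const v), fd_const h.dJ, mΓ]
    simp only [cdE_apply, map_add, map_sub, ContinuousLinearMap.add_apply,
      ContinuousLinearMap.sub_apply, fderiv_fun_const, Pi.zero_apply,
      ContinuousLinearMap.zero_apply, map_zero]
    ring
  have sw : ∀ x u v, fderiv ℝ (fun y => a y ![u, v]) p x = -fderiv ℝ (fun y => a y ![v, u]) p x := by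
    intro x u v
    rw [show (fun y => a y ![u, v]) = fun y => -a y ![v, u] from funext fun y => alt_swap _ _ _,
      fderiv_fun_neg]
    rfl
  refine ⟨s0, fun x u v => ?_, fun x u v => ?_⟩
  · rw [k, k, sw x u v, s0 (Γ x u) v, s0 (Γ x v) u, sG (Γ x u), sG (Γ x v)]
    ring
  · have h1 := ext_two d1 x u v
    rw [d2, sw u x v] at h1
    have h2 : (0 : E [⋀^Fin (2 + 1)]→L[ℝ] ℝ) ![x, u, v] = 0 := rfl
    rw [k, k, k, s0 (Γ x u) v, s0 (Γ u v) x, s0 (Γ v x) u, sG (Γ x u), sG (Γ u v), sG (Γ v x),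
      sΓ x v, sΓ u x, sΓ v u]
    linarith

theorem par_of {I J K : E → E →L[ℝ] E} (hI : KF G I p) (hJ : KF G J p) (hK : KF G K p)
    (q : ∀ᶠ y in 𝓝 p, Quat (I y) (J y) (K y)) (dG : DifferentiableAt ℝ G p)
    (sG : ∀ u v, G p u v = G p v u) (sΓ : ∀ u v, Γ u v = Γ v u)
    (mΓ : ∀ x u v, fderiv ℝ G p x u v = G p (Γ x u) v + G p u (Γ x v)) (x u v : E) :
    G p (cdE I Γ p x u) v = 0 := by
  obtain ⟨i0, i1, i2⟩ := hI.rel dG sG sΓ mΓ
  obtain ⟨j0, j1, j2⟩ := hJ.rel dG sG sΓ mΓ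
  obtain ⟨k0, k1, k2⟩ := hK.rel dG sG sΓ mΓ
  refine hk_alg q.self_of_nhds i1 j1 k1 (fun x u v => ?_) i2 j2 k2 (fun x u v => ?_)
    (fun x u v => ?_) x u v
  · have h1 := cdE_mul hI.dJ hI.dJ (differentiableAt_const (-ContinuousLinearMap.id ℝ E))
      (q.mono fun y hy => hy.II) Γ x u
    have h2 : cdE (fun _ => -ContinuousLinearMap.id ℝ E) Γ p x u = 0 := by simp [cdE_apply]
    rw [h2] at h1
    rw [eq_neg_of_add_eq_zero_left h1.symm, map_neg, ContinuousLinearMap.neg_apply, i0, neg_neg]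
  · rw [cdE_mul hI.dJ hJ.dJ hK.dJ (q.mono fun y hy => hy.IJ), map_add,
      ContinuousLinearMap.add_apply, i0, sub_eq_add_neg]
  · rw [cdE_mul hK.dJ hI.dJ hJ.dJ (q.mono fun y hy => hy.rot.rot.IJ), map_add,
      ContinuousLinearMap.add_apply, k0, sub_eq_add_neg]

variable [FiniteDimensional ℝ E]

theorem inv_of_pos {g : E →L[ℝ] E →L[ℝ] ℝ} (h : ∀ v, v ≠ 0 → 0 < g v v) : g.IsInvertible := by
  have hr : Module.finrank ℝ E = Module.finrank ℝ (E →L[ℝ] ℝ) := by
    rw [← (LinearMap.toContinuousLinearMap (𝕜 := ℝ) (E := E) (F' := ℝ)).finrank_eq]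
    exact (Subspace.dual_finrank_eq).symm
  have hi : Function.Injective (g : E →ₗ[ℝ] E →L[ℝ] ℝ) := by
    rw [injective_iff_map_eq_zero]
    intro u hu
    by_contra h0
    exact (h u h0).ne' (DFunLike.congr_fun hu u)
  exact ⟨(LinearMap.linearEquivOfInjective _ hi hr).toContinuousLinearEquiv, by ext; rfl⟩

/-- the Christoffel symbols -/
theorem exists_chr {g : E →L[ℝ] E →L[ℝ] ℝ} (h : ∀ v, v ≠ 0 → 0 < g v v)
    (sg : ∀ u v, g u v = g v u) (B : E →L[ℝ] E →L[ℝ] E →L[ℝ] ℝ) (hB : ∀ x u v, B x u v = B x v u) :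
    ∃ Γ : E →L[ℝ] E →L[ℝ] E, (∀ u v, Γ u v = Γ v u) ∧
      ∀ x u v, B x u v = g (Γ x u) v + g u (Γ x v) := by
  let T : E →L[ℝ] E →L[ℝ] E →L[ℝ] ℝ :=
    (ContinuousLinearMap.flipₗᵢ ℝ E E ℝ).toLinearIsometry.toContinuousLinearMap.comp B.flip
  have hT : ∀ x u v, T x u v = B v x u := fun _ _ _ => rfl
  let L := ContinuousLinearMap.compL ℝ E (E →L[ℝ] ℝ) E g.inverse
  let Γ : E →L[ℝ] E →L[ℝ] E := (1 / 2 : ℝ) • (L.comp B + L.comp B.flip - L.comp T)
  have hΓ : ∀ x u v, g (Γ x u) v = 1 / 2 * (B x u v + B u x v - B v x u) := fun x u v => by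
    have a : Γ x u = (1 / 2 : ℝ) • (g.inverse (B x u) + g.inverse (B u x) - g.inverse (T x u)) := rfl
    rw [a, map_smul, map_sub, map_add, (inv_of_pos h).self_apply_inverse,
      (inv_of_pos h).self_apply_inverse, (inv_of_pos h).self_apply_inverse]
    rfl
  refine ⟨Γ, fun u v => ?_, fun x u v => ?_⟩
  · by_contra h0
    have a := h _ (sub_ne_zero.2 h0)
    rw [map_sub g, ContinuousLinearMap.sub_apply, hΓ, hΓ, hB _ u v] at a
    linarith
  · rw [sg u, hΓ, hΓ, hB x v u]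
    ring

theorem bounded_of_pos {g : E →L[ℝ] E →L[ℝ] ℝ} (h : ∀ v, v ≠ 0 → 0 < g v v) :
    Bornology.IsVonNBounded ℝ {v : E | g v v < 1} := by
  rw [NormedSpace.isVonNBounded_iff]
  rcases subsingleton_or_nontrivial E with h0 | h0
  · exact Set.toFinite _ |>.isBounded
  obtain ⟨z, hz, h1⟩ := (isCompact_sphere (0 : E) 1).exists_isMinOn
    (NormedSpace.sphere_nonempty.2 zero_le_one) (f := fun v => g v v) (by fun_prop)
  have hz0 : z ≠ 0 := by
    rintro rfl
    simp at hz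
  have c0 := h z hz0
  refine (Metric.isBounded_closedBall (x := (0 : E)) (r := 1 + (g z z)⁻¹)).subset fun v hv => ?_
  rw [mem_closedBall_zero_iff]
  by_contra h2
  push Not at h2
  have c1 := inv_pos.2 c0
  have n0 : 0 < ‖v‖ := by linarith
  have h3 : g z z ≤ g (‖v‖⁻¹ • v) (‖v‖⁻¹ • v) :=
    h1 (by simp [norm_smul, inv_mul_cancel₀ n0.ne'] : ‖v‖⁻¹ • v ∈ Metric.sphere (0 : E) 1)
  simp only [map_smul, ContinuousLinearMap.smul_apply, smul_eq_mul] at h3
  have h4 : g v v < 1 := hv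
  have h5 : g z z * (‖v‖ * ‖v‖) ≤ g v v := by
    have := mul_le_mul_of_nonneg_right h3 (mul_pos n0 n0).le
    field_simp at this
    nlinarith
  have h6 : 1 < g z z * ‖v‖ := by
    have := mul_lt_mul_of_pos_left h2 c0
    rw [mul_add, mul_inv_cancel₀ c0.ne'] at this
    linarith
  nlinarith

end alg

section mfd

open Vale.Agent.P204.T4 (Q)
open Vale.Agent.P204.Mfd (cE dsym dch omv Jat EndField AlmostComplex endRep)
open Vale.Agent.P247.SCY Vale.Agent.P247F
open Vale.Agent.P247.SCY.HS (E4)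
open Vale.Agent.P247M (rf)
open Vale.Agent.P272.K (Chart)

/-- a two-form as a bilinear map -/
def bilL : (E4 [⋀^Fin 2]→L[ℝ] ℝ) →L[ℝ] E4 →L[ℝ] E4 →L[ℝ] ℝ :=
  (ContinuousLinearMap.compL ℝ E4 (E4 [⋀^Fin 1]→L[ℝ] ℝ) (E4 →L[ℝ] ℝ) P247M.unone).comp curL

theorem bilL_apply (A : E4 [⋀^Fin 2]→L[ℝ] ℝ) (u v : E4) : bilL A u v = A ![u, v] :=
  P247M.unone_apply _ _

theorem bilL_cd : ContDiff ℝ ∞ fun A => bilL A :=
  ContinuousLinearMap.contDiff (𝕜 := ℝ) (E := E4 [⋀^Fin 2]→L[ℝ] ℝ)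
    (F := E4 →L[ℝ] E4 →L[ℝ] ℝ) bilL

theorem tri_alg {a b c : E4 →L[ℝ] E4 →L[ℝ] ℝ} {I J K : E4 →L[ℝ] E4} {p q r : ℝ}
    (sa : ∀ u v, a u v = -a v u) (sb : ∀ u v, b u v = -b v u) (sc : ∀ u v, c u v = -c v u)
    (hp : p * p = 1) (hq : q * q = 1) (hr : r * r = 1)
    (rI : ∀ u v, b (I u) v = -p * c u v ∧ c (I u) v = p * b u v)
    (rJ : ∀ u v, c (J u) v = -q * a u v ∧ a (J u) v = q * c u v)
    (rK : ∀ u v, a (K u) v = -r * b u v ∧ b (K u) v = r * a u v)
    (tI : ∀ u, u ≠ 0 → 0 < a u (I u)) (tJ : ∀ u, u ≠ 0 → 0 < b u (J u))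
    (tK : ∀ u, u ≠ 0 → 0 < c u (K u)) :
    (∀ u v, a (I u) v = a (I v) u) ∧ (∀ u v, b (J u) v = a (I u) v) ∧
      (∀ u v, c (K u) v = a (I u) v) ∧ ∀ u, I (J u) = p • K u := by
  have nd : ∀ {a : E4 →L[ℝ] E4 →L[ℝ] ℝ} {I : E4 →L[ℝ] E4}, (∀ u, u ≠ 0 → 0 < a u (I u)) →
      ∀ u u', (∀ v, a u v = a u' v) → u = u' := by
    intro a I h u u' h1
    by_contra h0
    have := h _ (sub_ne_zero.2 h0)
    rw [map_sub a, ContinuousLinearMap.sub_apply, h1, sub_self] at this
    exact lt_irrefl _ this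
  have m1 : ∀ u, I (J u) = (p * q * r) • K u := fun u => nd tJ _ _ fun v => by
    rw [(rI _ _).1, (rJ _ _).1, map_smul, ContinuousLinearMap.smul_apply, (rK _ _).2, smul_eq_mul]
    linear_combination (-(p * q * a u v)) * hr
  have m2 : ∀ u, J (K u) = (p * q * r) • I u := fun u => nd tK _ _ fun v => by
    rw [(rJ _ _).1, (rK _ _).1, map_smul, ContinuousLinearMap.smul_apply, (rI _ _).2, smul_eq_mul]
    linear_combination (-(q * r * b u v)) * hp
  have m3 : ∀ u, K (I u) = (p * q * r) • J u := fun u => nd tI _ _ fun v => by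
    rw [(rK _ _).1, (rI _ _).1, map_smul, ContinuousLinearMap.smul_apply, (rJ _ _).2, smul_eq_mul]
    linear_combination (-(r * p * c u v)) * hq
  have n1 : ∀ u v, c (K u) v = p * r * a (I u) v := fun u v => by
    have := (rJ (K u) v).2
    rw [m2, map_smul, ContinuousLinearMap.smul_apply, smul_eq_mul] at this
    linear_combination (-q) * this + (p * r * a (I u) v - c (K u) v) * hq
  have n2 : ∀ u v, b (J u) v = p * q * a (I u) v := fun u v => by
    have := (rK (I u) v).2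
    rw [m3, map_smul, ContinuousLinearMap.smul_apply, smul_eq_mul] at this
    linear_combination (p * q * r) * this - (b (J u) v * (q * q * (r * r))) * hp
      - (b (J u) v * (r * r)) * hq + (p * q * a (I u) v - b (J u) v) * hr
  have z : (HS.bas 0 : E4) ≠ 0 := fun h => by simpa [HS.bas] using congrArg (fun u : E4 => u 0) h
  have one : ∀ s t : ℝ, s * s = 1 → t * t = 1 → ∀ x y : ℝ, 0 < x → 0 < y → x = s * t * y →
      s * t = 1 := by
    intro s t hs ht x y hx hy h
    have h1 : (s * t - 1) * (s * t + 1) = 0 := by linear_combination (t * t) * hs + ht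
    rcases mul_eq_zero.1 h1 with h2 | h2
    · linarith
    · rw [show s * t = -1 by linarith] at h
      linarith
  have o1 : p * r = 1 := one p r hp hr _ _ (tK _ z) (tI _ z) (by rw [sc, n1, sa (HS.bas 0)]; ring)
  have o2 : p * q = 1 := one p q hp hq _ _ (tJ _ z) (tI _ z) (by rw [sb, n2, sa (HS.bas 0)]; ring)
  refine ⟨fun u v => ?_, fun u v => by rw [n2, o2, one_mul], fun u v => by rw [n1, o1, one_mul],
    fun u => ?_⟩
  · have h1 := (rK u (I v)).2
    rw [sb, (rI _ _).1, sc v, n1, sa u] at h1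
    linear_combination (-r) * h1 - (a (I u) v * (r * r)) * hp + (a (I v) u - a (I u) v) * hr
  · rw [m1, o2, one_mul, show r = p by linear_combination p * o1 - r * hp]

variable {X : Type} [TopologicalSpace X] [ChartedSpace E4 X]

/-- the metric and the complex structures of a triple, read pointwise -/
structure HKD (v : Fin 3 → HS.Form X 2) (J : Fin 3 → EndField X)
    (g : X → E4 →L[ℝ] E4 →L[ℝ] ℝ) : Prop where
  sc : ∀ i, P247X.SC (v i)
  ac : ∀ i, AlmostComplex (J i)
  adp : ∀ i x, ∃ c : Chart 2 X, Adp (J i) c ∧ x ∈ c.source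
  sym : ∀ x a b, g x a b = g x b a
  pos : ∀ x a, a ≠ 0 → 0 < g x a a
  form : ∀ i x a b, omv (v i) x a b = g x (Jat (J i) x a) b
  rel : (∀ x u, Jat (J 0) x (Jat (J 1) x u) = Jat (J 2) x u) ∨
    ∀ x u, Jat (J 0) x (Jat (J 1) x u) = -Jat (J 2) x u

theorem exists_hkd {X : Type} [P247X.Cl4 X] {μ : HS.Form X 4} (hμ : HS.Volume μ)
    {v : Fin 3 → HS.Form X 2} (h : P247X.Hyperkahler μ v) : ∃ J g, HKD v J g := by
  obtain ⟨c, hc⟩ := hk_quot hμ h
  have hy := h.1
  have sc : ∀ i, P247X.SC (v i) := fun i => ⟨hy.smooth i, hy.closed i⟩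
  have t0 : TriPos μ (v 0) (v 1) (v 2) := tri_of_posDef hy.posDef
  have t2 := t0.rot
  have t1 := t2.rot
  have r0 := rel_or t0 (fun x => by simp [hc]) fun x => by simp [hc]
  have r1 := rel_or t1 (fun x => by simp [hc]) fun x => by simp [hc]
  have r2 := rel_or t2 (fun x => by simp [hc]) fun x => by simp [hc]
  set J : Fin 3 → EndField X := ![Jf (v 0) (v 1) (v 2), Jf (v 1) (v 2) (v 0), Jf (v 2) (v 0) (v 1)]
    with hJ
  have ac : ∀ i, AlmostComplex (J i) := fun i => by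
    fin_cases i
    exacts [Jf_almostComplex (defAt_of_triPos t0) (sc 0).1 (sc 1).1 (sc 2).1,
      Jf_almostComplex (defAt_of_triPos t1) (sc 1).1 (sc 2).1 (sc 0).1,
      Jf_almostComplex (defAt_of_triPos t2) (sc 2).1 (sc 0).1 (sc 1).1]
  have bo : ∀ i x a b, bilL (rf (v i) x) a b = omv (v i) x a b := fun i x a b => bilL_apply _ _ _
  have sw : ∀ i x a b, bilL (rf (v i) x) a b = -bilL (rf (v i) x) b a := fun i x a b => by
    rw [bilL_apply, bilL_apply, alt_swap]
  choose q hq h1 using r1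
  choose r hr h2 using r2
  have key := fun x p (hp : p * p = 1) (h0 : Rel (J 0) (v 1) (v 2) p x) =>
    tri_alg (I := Jat (J 0) x) (J := Jat (J 1) x) (K := Jat (J 2) x) (sw 0 x) (sw 1 x) (sw 2 x)
      hp (hq x) (hr x) (by simp only [bo]; exact h0) (by simp only [bo]; exact h1 x)
      (by simp only [bo]; exact h2 x) (by simp only [bo]; exact Jf_tames' (defAt_of_triPos t0) x)
      (by simp only [bo]; exact Jf_tames' (defAt_of_triPos t1) x)
      (by simp only [bo]; exact Jf_tames' (defAt_of_triPos t2) x)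
  have sq : ∀ i x (u : E4), Jat (J i) x (Jat (J i) x u) = -u := fun i x u => (ac i).sq x u
  have nz : ∀ x, ∃ a b, omv (v 1) x a b ≠ 0 := fun x => ⟨_, _, (Jf_tames' (defAt_of_triPos t1) x
    (HS.bas 0) fun h => by simpa [HS.bas] using congrArg (fun u : E4 => u 0) h).ne'⟩
  refine ⟨J, fun x => -(bilL (rf (v 0) x)).comp (Jat (J 0) x), sc, ac, fun i x => ?_,
    fun x a b => ?_, fun x a ha => ?_, fun i x a b => ?_, ?_⟩
  · fin_cases i
    exacts [exists_adp t0 (sc 0).1 (sc 1) (sc 2) (fun x => by simp [hc]) (fun x => by simp [hc]) x,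
      exists_adp t1 (sc 1).1 (sc 2) (sc 0) (fun x => by simp [hc]) (fun x => by simp [hc]) x,
      exists_adp t2 (sc 2).1 (sc 0) (sc 1) (fun x => by simp [hc]) (fun x => by simp [hc]) x]
  · obtain ⟨p, hp, h0⟩ := r0 x
    exact congrArg Neg.neg ((key x p hp h0).1 a b)
  · show 0 < -bilL (rf (v 0) x) (Jat (J 0) x a) a
    rw [← sw, bo]
    exact Jf_tames' (defAt_of_triPos t0) x a ha
  · obtain ⟨p, hp, h0⟩ := r0 x
    obtain ⟨-, k1, k2, -⟩ := key x p hp h0
    show _ = -bilL (rf (v 0) x) (Jat (J 0) x (Jat (J i) x a)) b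
    have a1 : bilL (rf (v 0) x) (Jat (J 0) x (Jat (J i) x a)) b =
        bilL (rf (v i) x) (Jat (J i) x (Jat (J i) x a)) b := by
      fin_cases i
      exacts [rfl, (k1 _ _).symm, (k2 _ _).symm]
    rw [a1, sq, map_neg, ContinuousLinearMap.neg_apply, neg_neg, bo]
  · have op : ∀ p : ℝ, p * p = 1 → IsOpen {x | Rel (J 0) (v 1) (v 2) p x} := fun p hp =>
      isOpen_iff_mem_nhds.2 fun x hx => rel_ev (ac 0) (sc 1).1 (sc 2).1 r0 hp hx (nz x)
    have cv : (univ : Set X) ⊆ {x | Rel (J 0) (v 1) (v 2) 1 x} ∪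
        {x | Rel (J 0) (v 1) (v 2) (-1) x} := fun x _ => by
      obtain ⟨p, hp, h0⟩ := r0 x
      rcases mul_self_eq_one_iff.1 hp with rfl | rfl
      exacts [Or.inl h0, Or.inr h0]
    rcases isPreconnected_univ.subset_or_subset (op 1 (by norm_num)) (op (-1) (by norm_num))
      (Set.disjoint_left.2 fun x h1 h2 => by
        obtain ⟨a, b, h3⟩ := nz x
        have a1 := (h1 a b).2
        rw [(h2 a b).2] at a1
        exact h3 (by linarith)) cv with h1 | h1
    · exact Or.inl fun x u => by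
        rw [(key x 1 (by norm_num) (h1 (mem_univ x))).2.2.2, one_smul]
    · exact Or.inr fun x u => by
        rw [(key x (-1) (by norm_num) (h1 (mem_univ x))).2.2.2, neg_one_smul]

variable [IsManifold (𝓡 4) ∞ X]
variable {v : Fin 3 → HS.Form X 2} {J : Fin 3 → EndField X} {g : X → E4 →L[ℝ] E4 →L[ℝ] ℝ}
variable {e : OpenPartialHomeomorph X E4} {y : E4}

/-- the metric in a chart -/
def Gl (g : X → E4 →L[ℝ] E4 →L[ℝ] ℝ) (e : OpenPartialHomeomorph X E4) (y : E4) :
    E4 →L[ℝ] E4 →L[ℝ] ℝ := (g (e.symm y)).bilinearComp (dsym e y) (dsym e y)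

theorem Gl_apply (a b : E4) : Gl g e y a b = g (e.symm y) (dsym e y a) (dsym e y b) := rfl

theorem dsym_end (he : e ∈ atlas E4 X) (hy : y ∈ e.target) (J : EndField X) (u : E4) :
    dsym e y (endRep e J y u) = Jat J (e.symm y) (dsym e y u) := dsym_dch he hy _

theorem end_ext (he : e ∈ atlas E4 X) (hy : y ∈ e.target) {a b : E4}
    (h : dsym e y a = dsym e y b) : a = b := by
  rw [← dch_dsym he hy a, h, dch_dsym he hy]

theorem HKD.loc (h : HKD v J g) (he : e ∈ atlas E4 X) (hy : y ∈ e.target) (i : Fin 3) (a b : E4) :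
    HS.loc e (v i) y ![a, b] = Gl g e y (endRep e (J i) y a) b := by
  rw [loc_omv, h.form, Gl_apply, dsym_end he hy]

theorem HKD.sq (h : HKD v J g) (he : e ∈ atlas E4 X) (hy : y ∈ e.target) (i : Fin 3) (a : E4) :
    endRep e (J i) y (endRep e (J i) y a) = -a :=
  end_ext he hy (by rw [dsym_end he hy, dsym_end he hy, map_neg]; exact (h.ac i).sq _ _)

theorem HKD.cdJ (h : HKD v J g) (he : e ∈ atlas E4 X) (hy : y ∈ e.target) (i : Fin 3) :
    ContDiffAt ℝ ∞ (endRep e (J i)) y :=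
  ((h.ac i).smooth e he).contDiffAt (e.open_target.mem_nhds hy)

theorem HKD.cdG (h : HKD v J g) (he : e ∈ atlas E4 X) (hy : y ∈ e.target) :
    ContDiffAt ℝ ∞ (Gl g e) y := by
  have a1 := bilL_cd.contDiffAt.comp y
    (((h.sc 0).1 e he).contDiffAt (e.open_target.mem_nhds hy))
  refine (a1.clm_comp (h.cdJ he hy 0)).neg.congr_of_eventuallyEq ?_
  filter_upwards [e.open_target.mem_nhds hy] with z hz
  ext a b
  show Gl g e z a b = -bilL (HS.loc e (v 0) z) (endRep e (J 0) z a) b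
  rw [bilL_apply, h.loc he hz, h.sq he hz, map_neg, ContinuousLinearMap.neg_apply, neg_neg]

theorem HKD.kf (h : HKD v J g) (he : e ∈ atlas E4 X) (hy : y ∈ e.target) (i : Fin 3) :
    KF (Gl g e) (endRep e (J i)) y :=
  ⟨(h.cdJ he hy i).differentiableAt (by simp), HS.loc e (v i),
    (((h.sc i).1 e he).contDiffAt (e.open_target.mem_nhds hy)).differentiableAt (by simp),
    (h.sc i).2 e he y hy, by
      filter_upwards [e.open_target.mem_nhds hy] with z hz
      exact h.loc he hz i⟩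

theorem dsym_self (x : X) (u : E4) : dsym (chartAt E4 x) (chartAt E4 x x) u = u :=
  P247U.mfderiv_symm_self x u

theorem Gl_self (g : X → E4 →L[ℝ] E4 →L[ℝ] ℝ) (x : X) (a b : E4) :
    Gl g (chartAt E4 x) (chartAt E4 x x) a b = g x a b := by
  rw [Gl_apply, dsym_self, dsym_self, P247M.symm_self]

theorem end_self (J : EndField X) (x : X) (a : E4) :
    endRep (chartAt E4 x) J (chartAt E4 x x) a = Jat J x a := by
  have := dsym_end (chart_mem_atlas E4 x) (mem_chart_target E4 x) J a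
  rwa [dsym_self, dsym_self, P247M.symm_self] at this

theorem HKD.par (h : HKD v J g) (he : e ∈ atlas E4 X) (hy : y ∈ e.target)
    {Γ : E4 →L[ℝ] E4 →L[ℝ] E4} (sΓ : ∀ u v, Γ u v = Γ v u)
    (mΓ : ∀ x u v, fderiv ℝ (Gl g e) y x u v = Gl g e y (Γ x u) v + Gl g e y u (Γ x v))
    (i : Fin 3) (x u w : E4) : Gl g e y (cdE (endRep e (J i)) Γ y x u) w = 0 := by
  have dG := (h.cdG he hy).differentiableAt (by simp)
  have sG : ∀ a b, Gl g e y a b = Gl g e y b a := fun a b => h.sym _ _ _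
  have k := h.kf he hy
  rcases h.rel with r | r
  · have q : ∀ᶠ z in 𝓝 y, Quat (endRep e (J 0) z) (endRep e (J 1) z) (endRep e (J 2) z) := by
      filter_upwards [e.open_target.mem_nhds hy] with z hz
      exact ⟨h.sq he hz 0, h.sq he hz 1, h.sq he hz 2, fun a => end_ext he hz (by
        rw [dsym_end he hz, dsym_end he hz, dsym_end he hz, r])⟩
    fin_cases i
    exacts [par_of (k 0) (k 1) (k 2) q dG sG sΓ mΓ x u w,
      par_of (k 1) (k 2) (k 0) (q.mono fun _ h => h.rot) dG sG sΓ mΓ x u w,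
      par_of (k 2) (k 0) (k 1) (q.mono fun _ h => h.rot.rot) dG sG sΓ mΓ x u w]
  · have q : ∀ᶠ z in 𝓝 y, Quat (endRep e (J 1) z) (endRep e (J 0) z) (endRep e (J 2) z) := by
      filter_upwards [e.open_target.mem_nhds hy] with z hz
      have q1 : Quat (endRep e (J 0) z) (endRep e (J 1) z) (-endRep e (J 2) z) :=
        ⟨h.sq he hz 0, h.sq he hz 1, fun a => by
          simp only [ContinuousLinearMap.neg_apply, map_neg, neg_neg, h.sq he hz 2],
          fun a => end_ext he hz (by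
            rw [dsym_end he hz, dsym_end he hz, ContinuousLinearMap.neg_apply, map_neg,
              dsym_end he hz, r])⟩
      exact ⟨h.sq he hz 1, h.sq he hz 0, h.sq he hz 2, fun a => by
        rw [q1.JI, ContinuousLinearMap.neg_apply, neg_neg]⟩
    fin_cases i
    exacts [par_of (k 0) (k 2) (k 1) (q.mono fun _ h => h.rot) dG sG sΓ mΓ x u w,
      par_of (k 1) (k 0) (k 2) q dG sG sΓ mΓ x u w,
      par_of (k 2) (k 1) (k 0) (q.mono fun _ h => h.rot.rot) dG sG sΓ mΓ x u w]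

/-- a vector field read in the preferred chart -/
def rep (x : X) (σ : ∀ y : X, TangentSpace 𝓘(ℝ, E4) y) : E4 → E4 :=
  VectorField.mpullbackWithin 𝓘(ℝ, E4) 𝓘(ℝ, E4) (extChartAt 𝓘(ℝ, E4) x).symm σ (range 𝓘(ℝ, E4))

theorem dsym_rep (x : X) (σ : ∀ y : X, TangentSpace 𝓘(ℝ, E4) y) {y : E4}
    (hy : y ∈ (chartAt E4 x).target) :
    dsym (chartAt E4 x) y (rep x σ y) = σ ((chartAt E4 x).symm y) := by
  have h1 := isInvertible_mfderivWithin_extChartAt_symm (I := 𝓘(ℝ, E4)) (x := x) (y := y)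
    (by simpa using hy)
  unfold dsym
  rw [P247U.mfderiv_chart_symm]
  exact h1.self_apply_inverse _

/-- the value of a vector field -/
def vE (σ : ∀ y : X, TangentSpace 𝓘(ℝ, E4) y) (x : X) : E4 := σ x

theorem rep_self (x : X) (σ : ∀ y : X, TangentSpace 𝓘(ℝ, E4) y) :
    rep x σ (chartAt E4 x x) = vE σ x := by
  have h1 := dsym_rep x σ (mem_chart_target E4 x)
  have h2 : ∀ (x' : X) (_ : x' = x), (σ x' : E4) = σ x := by
    intro x' h; subst h; rfl
  exact (dsym_self x _).symm.trans (h1.trans (h2 _ (P247M.symm_self x)))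

theorem diff_rep {x : X} {σ : ∀ y : X, TangentSpace 𝓘(ℝ, E4) y}
    (h : MDifferentiableAt 𝓘(ℝ, E4) (𝓘(ℝ, E4).prod 𝓘(ℝ, E4))
      (fun y => (⟨y, σ y⟩ : TangentBundle 𝓘(ℝ, E4) X)) x) :
    DifferentiableAt ℝ (rep x σ) (chartAt E4 x x) := by
  have h2 := (h.mdifferentiableWithinAt (s := univ)).differentiableWithinAt_mpullbackWithin_vectorField
  simp only [preimage_univ, univ_inter] at h2
  have h3 : range 𝓘(ℝ, E4) = univ := by simp
  have h4 : DifferentiableWithinAt ℝ (rep x σ) (range 𝓘(ℝ, E4)) (chartAt E4 x x) := h2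
  rwa [h3, differentiableWithinAt_univ] at h4

/-- the differential of a function -/
def dE (f : X → ℝ) (x : X) : E4 →L[ℝ] ℝ := mvfderiv 𝓘(ℝ, E4) f x

/-- the covariant derivative given by symbols in the preferred charts -/
def cdv (Γ : X → E4 →L[ℝ] E4 →L[ℝ] E4) (σ : ∀ y : X, TangentSpace 𝓘(ℝ, E4) y) (x : X) :
    E4 →L[ℝ] E4 := fderiv ℝ (rep x σ) (chartAt E4 x x) + Γ x (vE σ x)

/-- the connection given by symbols in the preferred charts -/
def conn (Γ : X → E4 →L[ℝ] E4 →L[ℝ] E4) : Connection E4 X where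
  toFun σ x := cdv Γ σ x
  isCovariantDerivativeOnUniv :=
    { add := fun {σ σ' x} h h' _ => by
        have a : rep x (σ + σ') = rep x σ + rep x σ' := VectorField.mpullbackWithin_add
        have b : Γ x (vE (σ + σ') x) = Γ x (vE σ x) + Γ x (vE σ' x) := map_add (Γ x) (vE σ x) (vE σ' x)
        show cdv Γ (σ + σ') x = cdv Γ σ x + cdv Γ σ' x
        unfold cdv
        rw [a, b, fderiv_add (diff_rep h) (diff_rep h')]
        abel
      leibniz := fun {σ f x} h hf _ => by
        have a : rep x (f • σ) = (f ∘ (extChartAt 𝓘(ℝ, E4) x).symm) • rep x σ :=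
          VectorField.mpullbackWithin_smul
        have b : Γ x (vE (f • σ) x) = f x • Γ x (vE σ x) := map_smul (Γ x) (f x) (vE σ x)
        have h3 : range 𝓘(ℝ, E4) = univ := by simp
        have c := hf.differentiableWithinAt_writtenInExtChartAt
        have d := hf.mfderiv
        rw [h3, differentiableWithinAt_univ] at c
        rw [h3, fderivWithin_univ] at d
        have c' : DifferentiableAt ℝ (f ∘ (extChartAt 𝓘(ℝ, E4) x).symm) (chartAt E4 x x) := c
        have d' : dE f x =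
            fderiv ℝ (f ∘ (extChartAt 𝓘(ℝ, E4) x).symm) (chartAt E4 x x) := d
        have e' : (f ∘ (extChartAt 𝓘(ℝ, E4) x).symm) (chartAt E4 x x) = f x :=
          congrArg f (P247M.symm_self x)
        show cdv Γ (f • σ) x = f x • cdv Γ σ x + (dE f x).smulRight (vE σ x)
        unfold cdv
        rw [a, b, fderiv_smul c' (diff_rep h), e', rep_self, d', smul_add]
        abel }

/-- the bilinear forms on the tangent spaces -/
def gT (g : X → E4 →L[ℝ] E4 →L[ℝ] ℝ) (x : X) :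
    TangentSpace 𝓘(ℝ, E4) x →L[ℝ] TangentSpace 𝓘(ℝ, E4) x →L[ℝ] ℝ := g x

open Bundle in
/-- the metric -/
def HKD.metric (h : HKD v J g) : Metric E4 X where
  inner := gT g
  symm := h.sym
  pos := h.pos
  isVonNBounded x := bounded_of_pos (h.pos x)
  contMDiff := by
    intro x
    rw [contMDiffAt_section]
    have hs := mem_chart_source E4 x
    have h1 := (h.cdG (chart_mem_atlas E4 x) (mem_chart_target E4 x)).comp_contMDiffAt
      ((cmd_chart (chart_mem_atlas E4 x)).contMDiffAt ((chartAt E4 x).open_source.mem_nhds hs))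
    refine h1.congr_of_eventuallyEq ?_
    filter_upwards [(chartAt E4 x).open_source.mem_nhds hs] with z hz
    ext a b
    rw [hom_trivializationAt_apply]
    show ContinuousLinearMap.inCoordinates E4 (fun x : X => TangentSpace 𝓘(ℝ, E4) x) (E4 →L[ℝ] ℝ)
      (fun x : X => TangentSpace 𝓘(ℝ, E4) x →L[ℝ] ℝ) x z x z (gT g z) a b =
      Gl g (chartAt E4 x) (chartAt E4 x z) a b
    rw [inCoordinates_apply_eq₂ (by simpa using hz) (by simpa using hz) (mem_univ _), Gl_apply,
      (chartAt E4 x).left_inv hz]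
    have h2 : ∀ u : E4, (trivializationAt E4 (TangentSpace 𝓘(ℝ, E4)) x).symm z u =
        dsym (chartAt E4 x) (chartAt E4 x z) u := fun u => by
      unfold dsym
      rw [← P247U.symmL_eq hz]
      exact (Trivialization.symmL_apply (R := ℝ) _ (by simpa using hz) u).symm
    rw [h2, h2]
    simp
    rfl

theorem HKD.hk (h : HKD v J g) {u : Fin 3 → P247U.Form E4 X 2} (hu : ∀ i x, u i x = v i x) :
    IsHyperkahlerMetric h.metric u := by
  have at' := fun x : X => chart_mem_atlas E4 x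
  have tg := fun x : X => mem_chart_target E4 x
  have dG := fun x : X => (h.cdG (at' x) (tg x)).differentiableAt (by simp)
  choose Γ s1 s2 using fun x : X => exists_chr (g := Gl g (chartAt E4 x) (chartAt E4 x x))
    (fun a ha => by rw [Gl_self]; exact h.pos x a ha) (fun a b => h.sym _ _ _)
    (fderiv ℝ (Gl g (chartAt E4 x)) (chartAt E4 x x)) fun z a b => by
      rw [← fd_const (dG x) a z, ← fd_const (dG x) b z,
        ← fd_const ((dG x).clm_apply (differentiableAt_const a)),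
        ← fd_const ((dG x).clm_apply (differentiableAt_const b))]
      exact congrArg (fun f : E4 → ℝ => fderiv ℝ f _ z) (funext fun y => h.sym _ _ _)
  have dV := fun (x : X) (V : P247U.Vec E4 X) => P247U.differentiableAt_pb x V
  have cV : ∀ (V : P247U.Vec E4 X) (x : X) (a : E4), cdv Γ (P247U.vec V) x a =
      fderiv ℝ (P247U.pb x V) (chartAt E4 x x) a + Γ x (vE (P247U.vec V) x) a := fun _ _ _ => rfl
  have pV : ∀ (x : X) (V : P247U.Vec E4 X), P247U.pb x V (chartAt E4 x x) = vE (P247U.vec V) x :=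
    P247U.pb_self
  refine ⟨J, conn Γ, fun U V W x => ⟨?_, ?_⟩, h.rel, fun i => ⟨fun x => ?_, fun V x a => ?_,
    fun x a b => ⟨?_, ?_⟩⟩⟩
  · refine Eq.trans ?_ (P247U.br_eq x U V).symm
    show cdv Γ (P247U.vec V) x (vE (P247U.vec U) x) - cdv Γ (P247U.vec U) x (vE (P247U.vec V) x) =
      VectorField.lieBracket ℝ (P247U.pb x U) (P247U.pb x V) (chartAt E4 x x)
    rw [cV, cV, s1 x (vE (P247U.vec V) x), VectorField.lieBracket, pV, pV]
    abel
  · rw [P247U.der_eq x U (g := fun y => Gl g (chartAt E4 x) y (P247U.pb x V y) (P247U.pb x W y))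
      (((dG x).clm_apply (dV x V)).clm_apply (dV x W)) fun y hy => by
        rw [Gl_apply]
        exact congrArg₂ (fun a b => g _ a b) (P247U.mfderiv_pb x V hy) (P247U.mfderiv_pb x W hy),
      fd_two (dG x) (dV x V) (dV x W), s2]
    show _ = g x (cdv Γ (P247U.vec V) x (vE (P247U.vec U) x)) (vE (P247U.vec W) x) +
      g x (vE (P247U.vec V) x) (cdv Γ (P247U.vec W) x (vE (P247U.vec U) x))
    rw [cV, cV, s1 x (vE (P247U.vec V) x), s1 x (vE (P247U.vec W) x)]
    simp only [pV, Gl_self, map_add, ContinuousLinearMap.add_apply]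
    ring
  · obtain ⟨c, h1, h2⟩ := h.adp i x
    exact ⟨c, h2, h1.sm, h1.sms, h1.hol⟩
  · have a1 : rep x (fun y => J i y (P247U.vec V y)) =ᶠ[𝓝 (chartAt E4 x x)]
        fun y => endRep (chartAt E4 x) (J i) y (P247U.pb x V y) := by
      filter_upwards [(chartAt E4 x).open_target.mem_nhds (tg x)] with y hy
      refine end_ext (at' x) hy ?_
      rw [dsym_rep x _ hy, dsym_end (at' x) hy]
      exact congrArg (Jat (J i) _) (P247U.mfderiv_pb x V hy).symm
    have key : ∀ a : E4, fderiv ℝ (rep x fun y => J i y (P247U.vec V y)) (chartAt E4 x x) a +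
        Γ x (Jat (J i) x (vE (P247U.vec V) x)) a = Jat (J i) x (cdv Γ (P247U.vec V) x a) := by
      intro a
      set b := vE (P247U.vec V) x with hb
      have a2 : cdE (endRep (chartAt E4 x) (J i)) (Γ x) (chartAt E4 x x) a b = 0 := by
        by_contra h0
        have := h.par (at' x) (tg x) (s1 x) (s2 x) i a b
          (cdE (endRep (chartAt E4 x) (J i)) (Γ x) (chartAt E4 x x) a b)
        rw [Gl_self] at this
        exact (h.pos x _ h0).ne' this
      rw [cdE_apply, end_self, end_self, sub_eq_zero] at a2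
      rw [a1.fderiv_eq, fd_apply (h.kf (at' x) (tg x) i).dJ (dV x V), cV, map_add, pV,
        end_self, ← hb, s1 x b, ← a2, s1 x (Jat (J i) x b)]
      abel
    exact key a
  · have key : ∀ a b : E4, g x (Jat (J i) x a) (Jat (J i) x b) = g x a b := by
      intro a b
      have a1 : Jat (J i) x (Jat (J i) x b) = -b := (h.ac i).sq x b
      rw [← h.form, show omv (v i) x a (Jat (J i) x b) = -omv (v i) x (Jat (J i) x b) a from
        alt_swap (rf (v i) x) _ _, h.form, a1, map_neg, ContinuousLinearMap.neg_apply, neg_neg,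
        h.sym]
    exact key a b
  · show u i x ![a, b] = _
    rw [hu]
    exact h.form i x a b

end mfd

end Vale.Agent.N247
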