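import Vale.Agent.N247.Fin

open scoped Manifold ContDiff
open MeasureTheory

namespace Vale.Agent.N247.OldFixedForm

open Vale.Agent.P247U Vale.Agent.N247

/-- Donaldson's hypersymplectic deformation conjecture, also with one form or the final volume
form prescribed; hyperkaehler metrics; the underlying manifold. -/
theorem old_result (X : Type) [TopologicalSpace X] [ChartedSpace R4 X] [IsManifold 𝓘(ℝ, R4) ∞ X]
    [CompactSpace X] [T2Space X] [ConnectedSpace X] [MeasurableSpace X] [BorelSpace X]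
    (μ : Form R4 X 4) (hμ : IsVolumeForm μ) :
    (∃ m : Measure X, (∀ m', IsMeasureOf std μ m' ↔ m' = m) ∧
      ∀ w, Hypersymplectic μ w → Normalized μ m w →
        (∃ W, Deformation μ w W ∧ Hyperkahler μ (W 1)) ∧
        (∀ a, ∃ W α, Deformation μ w W ∧ Hyperkahler μ (W 1) ∧ ∀ t, Comb a (W t) α) ∧
        (m.real Set.univ = 1 / 2 → ∃ W, Deformation μ w W ∧ WedgeEq μ (W 1) fun _ => 1)) ∧
    (∀ u, Hyperkahler μ u → ∃ g, IsHyperkahlerMetric g u) ∧
    ∀ w, Hypersymplectic μ w →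
      (∀ a ≠ 0, ∃ u, Hyperkahler μ u ∧ Comb a w (u 0)) ∧ (IsK3 R4 X ∨ IsFourTorus R4 X) := by
  obtain ⟨m, hm⟩ := meas_of μ
  have h := (hm m).2 rfl
  refine ⟨⟨m, hm, fun w hw hn => ⟨?_, fun a => ?_, vol_fix hμ h hw hn⟩⟩, fun _ => metric_of hμ,
    fun w hw => ⟨fun _ => kahler_of hμ hw, torus_of hμ hw⟩⟩
  · obtain ⟨W, _, h1, h2, _⟩ := comb_of hμ h hw hn 0
    exact ⟨W, h1, h2⟩
  · obtain ⟨W, α, h1, h2, _, h3⟩ := comb_of hμ h hw hn a
    exact ⟨W, α, h1, h2, h3⟩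

end Vale.Agent.N247.OldFixedForm
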