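import Vale.Agent.P247F.Chain
import Vale.Agent.P247M.PB

/-!
# P247, block N: pull-backs by self-maps, chains with one fixed form
-/

set_option linter.all false

open scoped BigOperators ContDiff Topology Manifold
open Set Filter

noncomputable section

namespace Vale.Agent.N247
open Vale.Agent.P204.T4 (Q det4 Q_pull)
open Vale.Agent.P204.Mfd (cE dsym dch mdiff_symm mdiff_chart)
open Vale.Agent.P247.SCY Vale.Agent.P247.SCY.HS Vale.Agent.P247F
open Vale.Agent.P247M (pb dP SmF RF rf hs)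
open Vale.Agent.P267.H175 (dF SmAt)

variable {X : Type} [TopologicalSpace X] [ChartedSpace E4 X] {k : ℕ} {μ : Form X 4}

/-- the differential of a self-map -/
def dX (ψ : X → X) (x : X) : E4 →L[ℝ] E4 := mfderiv (𝓡 4) (𝓡 4) ψ x

/-- the pull-back by a self-map -/
def pl (ψ : X → X) (α : Form X k) : Form X k :=
  hs fun x => (rf α (ψ x)).compContinuousLinearMap (dX ψ x)

theorem rf_pl (ψ : X → X) (α : Form X k) (x : X) :
    rf (pl ψ α) x = (rf α (ψ x)).compContinuousLinearMap (dX ψ x) := rfl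

theorem pl_id (α : Form X k) : pl id α = α := by
  funext x
  have h : dX (id : X → X) x = ContinuousLinearMap.id ℝ E4 := mfderiv_id
  show (rf α x).compContinuousLinearMap (dX id x) = rf α x
  rw [h]
  ext v
  rfl

theorem pl_of_ev {ψ : X → X} {x : X} (h : ψ =ᶠ[𝓝 x] id) (α : Form X k) :
    rf (pl ψ α) x = rf α x := by
  have h1 : dX ψ x = dX id x := h.mfderiv_eq
  have h2 : ψ x = x := h.eq_of_nhds
  rw [rf_pl, h1, h2]
  exact congrFun (pl_id α) x

theorem pl_comp {ψ χ : X → X} (hψ : ContMDiff (𝓡 4) (𝓡 4) ∞ ψ) (hχ : ContMDiff (𝓡 4) (𝓡 4) ∞ χ)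
    (α : Form X k) : pl ψ (pl χ α) = pl (χ ∘ ψ) α := by
  funext x
  have h : dX (χ ∘ ψ) x = (dX χ (ψ x)).comp (dX ψ x) :=
    mfderiv_comp x ((hχ _).mdifferentiableAt (by simp)) ((hψ _).mdifferentiableAt (by simp))
  show ((rf α (χ (ψ x))).compContinuousLinearMap (dX χ (ψ x))).compContinuousLinearMap (dX ψ x) =
    (rf α (χ (ψ x))).compContinuousLinearMap (dX (χ ∘ ψ) x)
  rw [h]
  rfl

theorem pl_lin (ψ : X → X) (a b : Fin 3 → Form X 2) (s : ℝ) :
    (fun i => pl ψ (lin a b s i)) = lin (fun i => pl ψ (a i)) (fun i => pl ψ (b i)) s := rfl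

/-- the Jacobian for the volume form `μ` -/
def jac (μ : Form X 4) (ψ : X → X) (x : X) : ℝ :=
  det4 (mat (dX ψ x)) * ax μ (ψ x) bas / ax μ x bas

theorem ax_pl (ψ : X → X) (ν : Form X 4) (x : X) :
    ax (pl ψ ν) x bas = det4 (mat (dX ψ x)) * ax ν (ψ x) bas :=
  top_compE (ax ν (ψ x)) (dX ψ x)

theorem cx_pl (ψ : X → X) (α : Form X 2) (x : X) :
    cx (pl ψ α) x = P204.T4.pull (mat (dX ψ x)) (cx α (ψ x)) :=
  cE_comp_E (rf α (ψ x)) (dX ψ x)

variable [IsManifold (𝓡 4) ∞ X]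

theorem quot_pl (hμ : Volume μ) (ψ : X → X) (α β : Form X 2) (x : X) :
    quot μ (pl ψ α) (pl ψ β) x = jac μ ψ x * quot μ α β (ψ x) := by
  rw [quot_cx, quot_cx, cx_pl, cx_pl, Q_pull, jac]
  have h1 := ax_ne hμ x
  have h2 := ax_ne hμ (ψ x)
  field_simp

theorem loc_pl {e : OpenPartialHomeomorph X E4} (he : e ∈ atlas E4 X) {y : E4} (hy : y ∈ e.target)
    {ψ : X → X} (hψ : MDifferentiableAt (𝓡 4) (𝓡 4) ψ (e.symm y)) (α : Form X k) :
    loc e (pl ψ α) y = pb (fun z => ψ (e.symm z)) α y := by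
  have h : dP (fun z => ψ (e.symm z)) y = (dX ψ (e.symm y)).comp (dsym e y) :=
    mfderiv_comp y hψ (mdiff_symm he hy)
  unfold pb
  rw [h]
  rfl

theorem cmd_symm {e : OpenPartialHomeomorph X E4} (he : e ∈ atlas E4 X) :
    ContMDiffOn (𝓡 4) (𝓡 4) ∞ e.symm e.target :=
  contMDiffOn_symm_of_mem_maximalAtlas (IsManifold.subset_maximalAtlas he)

theorem cmd_chart {e : OpenPartialHomeomorph X E4} (he : e ∈ atlas E4 X) :
    ContMDiffOn (𝓡 4) (𝓡 4) ∞ e e.source :=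
  contMDiffOn_of_mem_maximalAtlas (IsManifold.subset_maximalAtlas he)

theorem smAt_pl {ψ : X → X} (hψ : ContMDiff (𝓡 4) (𝓡 4) ∞ ψ) {α : Form X k} {x : X}
    (hα : SmAt (rf α) (ψ x)) :
    SmAt (rf (pl ψ α)) x ∧ dF (rf (pl ψ α)) x = rf (pl ψ (hs (dF (rf α)))) x := by
  set e := chartAt E4 x with hed
  have he : e ∈ atlas E4 X := chart_mem_atlas E4 x
  have hx : x ∈ e.source := mem_chart_source E4 x
  have hy : e x ∈ e.target := e.map_source hx
  have hP : ContMDiffOn 𝓘(ℝ, E4) (𝓡 4) ∞ (fun z => ψ (e.symm z)) e.target :=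
    hψ.comp_contMDiffOn (cmd_symm he)
  have ev : ∀ {m : ℕ} (β : Form X m), P267.H175.loc e (rf (pl ψ β)) =ᶠ[𝓝 (e x)]
      pb (fun z => ψ (e.symm z)) β := fun β => by
    filter_upwards [e.open_target.mem_nhds hy] with z hz
    rw [← P247M.loc_eq he _ hz, loc_pl he hz ((hψ _).mdifferentiableAt (by simp))]
  have hα' : SmAt (rf α) (ψ (e.symm (e x))) := by rwa [e.left_inv hx]
  refine ⟨(P247M.contDiffAt_pb e.open_target hP hy hα').congr_of_eventuallyEq (ev α), ?_⟩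
  show extDeriv (P267.H175.loc e (rf (pl ψ α))) (e x) = _
  rw [(ev α).extDeriv_eq, P247M.extDeriv_pb e.open_target hP hy hα',
    ← (ev (hs (dF (rf α)))).eq_of_nhds]
  exact P267.H175.loc_self _ x

theorem smooth_pl {ψ : X → X} (hψ : ContMDiff (𝓡 4) (𝓡 4) ∞ ψ) {α : Form X k} (hα : Smooth α) :
    Smooth (pl ψ α) :=
  P247M.smooth_iff.2 fun x => (smAt_pl hψ (P247M.smooth_iff.1 hα _)).1

theorem closed_pl {ψ : X → X} (hψ : ContMDiff (𝓡 4) (𝓡 4) ∞ ψ) {α : Form X k} (hα : Smooth α)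
    (hc : Closed α) : Closed (pl ψ α) := by
  refine (P247M.closed_iff (smooth_pl hψ hα)).2 fun x => ?_
  rw [(smAt_pl hψ (P247M.smooth_iff.1 hα _)).2, rf_pl]
  have : rf (hs (dF (rf α))) (ψ x) = 0 := (P247M.closed_iff hα).1 hc _
  rw [this]
  rfl

theorem exact_pl {ψ : X → X} (hψ : ContMDiff (𝓡 4) (𝓡 4) ∞ ψ) {α : Form X 2} (h : Exact α) :
    Exact (pl ψ α) := by
  obtain ⟨η, h1, h2⟩ := P247M.exact_iff.1 h
  refine P247M.exact_iff.2 ⟨rf (pl ψ (hs η)), fun x => (smAt_pl hψ (h1 _)).1, funext fun x => ?_⟩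
  rw [(smAt_pl hψ (α := hs η) (h1 _)).2]
  have : (hs (dF (rf (hs η))) : Form X 2) = α := P247M.rf_inj h2
  rw [this]

/-- smooth self-maps with positive Jacobian -/
structure OP (μ : Form X 4) (ψ : X → X) : Prop where
  sm : ContMDiff (𝓡 4) (𝓡 4) ∞ ψ
  pos : ∀ x, 0 < jac μ ψ x

theorem Qm_pl (hμ : Volume μ) (ψ : X → X) (w : Fin 3 → Form X 2) (x : X) :
    Qm μ (fun i => pl ψ (w i)) x = jac μ ψ x • Qm μ w (ψ x) := by
  ext i j
  simp only [Qm, Matrix.of_apply, Matrix.smul_apply, smul_eq_mul, quot_pl hμ]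
  ring

theorem op_id (hμ : Volume μ) : OP μ id := by
  refine ⟨contMDiff_id, fun x => ?_⟩
  have h := ax_pl id μ x
  rw [pl_id] at h
  unfold jac
  rw [← h, div_self (ax_ne hμ x)]
  exact one_pos

theorem OP.comp (hμ : Volume μ) {ψ χ : X → X} (hψ : OP μ ψ) (hχ : OP μ χ) : OP μ (χ ∘ ψ) := by
  refine ⟨hχ.sm.comp hψ.sm, fun x => ?_⟩
  have h := ax_pl (χ ∘ ψ) μ x
  rw [← pl_comp hψ.sm hχ.sm, ax_pl, ax_pl] at h
  have h1 := mul_pos (hψ.pos x) (hχ.pos (ψ x))
  unfold jac at h1 ⊢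
  rw [← h]
  have h2 := ax_ne hμ (ψ x)
  have h3 := ax_ne hμ x
  refine lt_of_lt_of_eq h1 ?_
  field_simp

theorem OP.posDef (hμ : Volume μ) {ψ : X → X} (hψ : OP μ ψ) {w : Fin 3 → Form X 2}
    (h : ∀ x, (Qm μ w x).PosDef) (x : X) : (Qm μ (fun i => pl ψ (w i)) x).PosDef := by
  rw [Qm_pl hμ]
  exact (h _).smul (hψ.pos x)

theorem OP.hyper (hμ : Volume μ) {ψ : X → X} (hψ : OP μ ψ) {w : Fin 3 → Form X 2}
    (h : Hypersymplectic μ w) : Hypersymplectic μ fun i => pl ψ (w i) :=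
  ⟨fun i => smooth_pl hψ.sm (h.smooth i), fun i => closed_pl hψ.sm (h.smooth i) (h.closed i),
    hψ.posDef hμ h.posDef⟩

theorem OP.hk (hμ : Volume μ) {ψ : X → X} (hψ : OP μ ψ) {w : Fin 3 → Form X 2}
    (h : P247X.Hyperkahler μ w) : P247X.Hyperkahler μ fun i => pl ψ (w i) := by
  obtain ⟨h1, ν, hν, h2, h3⟩ := h
  have hd : ∀ x, det4 (mat (dX ψ x)) ≠ 0 := fun x h0 => by
    have := hψ.pos x
    unfold jac at this
    rw [h0, zero_mul, zero_div] at this
    exact lt_irrefl _ this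
  have hne : ∀ x, ax (pl ψ ν) x bas ≠ 0 := fun x => by
    rw [ax_pl]; exact mul_ne_zero (hd x) (ax_ne hν _)
  refine ⟨hψ.hyper hμ h1, pl ψ ν, ⟨smooth_pl hψ.sm hν.smooth, fun x h0 => hne x ?_⟩, fun x => ?_,
    fun x => ?_⟩
  · show (pl ψ ν x) bas = 0
    rw [h0]; rfl
  · show 0 < ax (pl ψ ν) x bas / ax μ x bas
    have a1 : 0 < ax ν (ψ x) bas / ax μ (ψ x) bas := h2 (ψ x)
    have a2 := mul_pos (hψ.pos x) a1
    have a3 := ax_ne hμ (ψ x)
    rw [ax_pl]
    unfold jac at a2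
    have a4 := ax_ne hμ x
    refine lt_of_lt_of_eq a2 ?_
    field_simp
  · rw [← h3 (ψ x)]
    ext i j
    simp only [Qm, Matrix.of_apply]
    rw [quot_cx, quot_cx, cx_pl, cx_pl, Q_pull, ax_pl]
    have a1 := hd x
    have a2 := ax_ne hν (ψ x)
    field_simp

/-- one segment in fixed classes, with the form number `k` fixed -/
def St (μ : Form X 4) (k : Fin 3) (a b : Fin 3 → Form X 2) : Prop :=
  Seg μ a b ∧ Coh a b ∧ b k = a k

/-- chains of such segments -/
def Fx (μ : Form X 4) (k : Fin 3) : (Fin 3 → Form X 2) → (Fin 3 → Form X 2) → Prop :=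
  Relation.ReflTransGen (St μ k)

/-- the same, up to a self-map -/
def Rl (μ : Form X 4) (k : Fin 3) (a b : Fin 3 → Form X 2) : Prop :=
  ∃ ψ, OP μ ψ ∧ Fx μ k a fun i => pl ψ (b i)

variable {j : Fin 3}

theorem St.pl (hμ : Volume μ) {ψ : X → X} (hψ : OP μ ψ) {a b : Fin 3 → Form X 2}
    (h : St μ j a b) : St μ j (fun i => pl ψ (a i)) fun i => pl ψ (b i) := by
  refine ⟨⟨hψ.hyper hμ h.1.hw, hψ.hyper hμ h.1.hv, fun s hs => ?_⟩,
    fun i => exact_pl hψ.sm (h.2.1 i), ?_⟩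
  · rw [← pl_lin]
    exact hψ.posDef hμ (h.1.pos s hs)
  · show N247.pl ψ (b j) = N247.pl ψ (a j)
    rw [h.2.2]

theorem Fx.pl (hμ : Volume μ) {ψ : X → X} (hψ : OP μ ψ) {a b : Fin 3 → Form X 2}
    (h : Fx μ j a b) : Fx μ j (fun i => pl ψ (a i)) fun i => pl ψ (b i) := by
  induction h with
  | refl => exact Relation.ReflTransGen.refl
  | tail _ h2 ih => exact Relation.ReflTransGen.tail ih (h2.pl hμ hψ)

theorem Rl.trans (hμ : Volume μ) {a b c : Fin 3 → Form X 2} (h : Rl μ j a b) (h' : Rl μ j b c) :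
    Rl μ j a c := by
  obtain ⟨ψ, h1, h2⟩ := h
  obtain ⟨χ, h3, h4⟩ := h'
  refine ⟨χ ∘ ψ, h1.comp hμ h3, Relation.ReflTransGen.trans h2 ?_⟩
  have := h4.pl hμ h1
  simp only [pl_comp h1.sm h3.sm] at this
  exact this

theorem Fx.rl (hμ : Volume μ) {a b : Fin 3 → Form X 2} (h : Fx μ j a b) : Rl μ j a b :=
  ⟨id, op_id hμ, by simpa only [pl_id] using h⟩

variable [CompactSpace X] [T2Space X]

/-- a continuous family in fixed classes gives short segments -/
theorem seg_eventually (hμ : Volume μ) {P : Type*} [TopologicalSpace P] {W : P → Fin 3 → Form X 2}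
    (hW : ∀ i, FamC fun p => W p i) (hy : ∀ p, Hypersymplectic μ (W p)) (s : P) :
    ∀ᶠ t in 𝓝 s, Seg μ (W s) (W t) := by
  have h1 := qm_eventually hμ (K := Icc (0 : ℝ) 1)
    (W := fun z => lin (W s) (W z.1) (z.2 : ℝ)) (fun i =>
      FamC.seg (famC_const (cont_of_smooth ((hy s).smooth i))) ((hW i).comp continuous_fst)
        (c := fun z : P × Icc (0 : ℝ) 1 => (z.2 : ℝ)) (by fun_prop)) (p0 := s)
    (fun r x => by
      have : lin (W s) (W s) (r : ℝ) = W s := funext fun j => lin_of_eq rfl _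
      simp only [this]
      exact (hy s).posDef x)
  filter_upwards [h1] with t ht
  exact ⟨hy s, hy t, fun r hr x => ht ⟨r, hr⟩ x⟩

theorem fx_of_fam (hμ : Volume μ) {W : ℝ → Fin 3 → Form X 2} (hW : ∀ i, FamC fun p => W p i)
    (hy : ∀ p, Hypersymplectic μ (W p)) (hc : ∀ p, Coh (W 0) (W p)) (hj : ∀ p, W p j = W 0 j) :
    Fx μ j (W 0) (W 1) := by
  refine PreconnectedSpace.induction₂' (fun p q => Fx μ j (W p) (W q)) (fun s => ?_)
    ⟨fun _ _ _ h h' => Relation.ReflTransGen.trans h h'⟩ 0 1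
  filter_upwards [seg_eventually hμ hW hy s] with t ht
  exact ⟨Relation.ReflTransGen.single ⟨ht, (hc s).symm.trans (hc t), (hj t).trans (hj s).symm⟩,
    Relation.ReflTransGen.single ⟨ht.symm, (hc t).symm.trans (hc s), (hj s).trans (hj t).symm⟩⟩

theorem append_fix {w : Fin 3 → Form X 2}
    {W : ℝ → Fin 3 → Form X 2} (h : Deformation μ w W) {θ : Fin 3 → Form X 2}
    (hθ : ∀ i, Smooth (θ i) ∧ Closed (θ i) ∧ Exact (θ i))
    (hpos : ∀ s ∈ Icc (0 : ℝ) 1, ∀ x, (Qm μ (fun i x => W 1 i x + s • θ i x) x).PosDef) :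
    ∃ W' : ℝ → Fin 3 → Form X 2, Deformation μ w W' ∧
      (W' 1 = fun i x => W 1 i x + θ i x) ∧
      ∀ t, ∃ r s : ℝ, W' t = fun i x => W r i x + s • θ i x := by
  set τ1 : ℝ → ℝ := fun t => Real.smoothTransition (2 * t) with hτ1
  set τ2 : ℝ → ℝ := fun t => Real.smoothTransition (2 * t - 1) with hτ2
  have s1 : ContDiff ℝ ∞ τ1 := Real.smoothTransition.contDiff.comp (by fun_prop)
  have s2 : ContDiff ℝ ∞ τ2 := Real.smoothTransition.contDiff.comp (by fun_prop)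
  have m1 : ∀ t, τ1 t ∈ Icc (0 : ℝ) 1 := fun t =>
    ⟨Real.smoothTransition.nonneg _, Real.smoothTransition.le_one _⟩
  have m2 : ∀ t, τ2 t ∈ Icc (0 : ℝ) 1 := fun t =>
    ⟨Real.smoothTransition.nonneg _, Real.smoothTransition.le_one _⟩
  have hlin : ∀ s ∈ Icc (0 : ℝ) 1, Hypersymplectic μ (fun i x => W 1 i x + s • θ i x) := by
    intro s hs
    have h1 := h.hyper 1 (by simp)
    exact ⟨fun i => smooth_add (h1.smooth i) (smooth_smul (hθ i).1 s), fun i =>
      closed_add (h1.smooth i) (smooth_smul (hθ i).1 s) (h1.closed i) (closed_smul (hθ i).2.1 s),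
      hpos s hs⟩
  refine ⟨fun t i x => W (τ1 t) i x + τ2 t • θ i x, ⟨?_, ?_, ?_, ?_⟩, ?_, fun t => ⟨_, _, rfl⟩⟩
  · intro i e he
    have e1 : (fun p : ℝ × E4 => loc e (fun x => W (τ1 p.1) i x + τ2 p.1 • θ i x) p.2) =
        fun p => loc e (W (τ1 p.1) i) p.2 + τ2 p.1 • loc e (θ i) p.2 := by
      funext p
      have h3 := congrFun (loc_add' e (W (τ1 p.1) i) (fun x => τ2 p.1 • θ i x)) p.2
      have h4 := congrFun (loc_smul' e (τ2 p.1) (θ i)) p.2
      rw [h4] at h3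
      exact h3
    rw [e1]
    have h3 : ContDiffOn ℝ ∞ (fun p : ℝ × E4 => loc e (W (τ1 p.1) i) p.2)
        (univ ×ˢ e.target) := by
      have h5 : ContDiffOn ℝ ∞ (fun p : ℝ × E4 => (τ1 p.1, p.2)) (univ ×ˢ e.target) :=
        ((s1.comp contDiff_fst).prodMk contDiff_snd).contDiffOn
      exact (h.smooth i e he).comp h5 (fun p hp => ⟨mem_univ _, hp.2⟩)
    have h4 : ContDiffOn ℝ ∞ (fun p : ℝ × E4 => loc e (θ i) p.2) (univ ×ˢ e.target) :=
      ((hθ i).1 e he).comp contDiff_snd.contDiffOn (fun p hp => hp.2)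
    have h5 : ContDiffOn ℝ ∞ (fun p : ℝ × E4 => τ2 p.1) (univ ×ˢ e.target) :=
      (s2.comp contDiff_fst).contDiffOn
    exact h3.add (h5.smul h4)
  · intro t _
    rcases le_total t (1 / 2) with ht | ht
    · have e2 : τ2 t = 0 := Real.smoothTransition.zero_of_nonpos (by linarith)
      have e1 : (fun i x => W (τ1 t) i x + τ2 t • θ i x) = W (τ1 t) := by
        funext i x
        rw [e2, zero_smul, add_zero]
      show Hypersymplectic μ (fun i x => W (τ1 t) i x + τ2 t • θ i x)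
      rw [e1]
      exact h.hyper _ (m1 t)
    · have e1 : τ1 t = 1 := Real.smoothTransition.one_of_one_le (by linarith)
      show Hypersymplectic μ (fun i x => W (τ1 t) i x + τ2 t • θ i x)
      rw [e1]
      exact hlin _ (m2 t)
  · funext i x
    have e1 : τ1 0 = 0 := Real.smoothTransition.zero_of_nonpos (by norm_num)
    have e2 : τ2 0 = 0 := Real.smoothTransition.zero_of_nonpos (by norm_num)
    show W (τ1 0) i x + τ2 0 • θ i x = w i x
    rw [e1, e2, zero_smul, add_zero, h.start]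
  · intro t i
    have : (fun x => W (τ1 t) i x + τ2 t • θ i x - w i x) =
        fun x => (W (τ1 t) i x - w i x) + τ2 t • θ i x := by
      funext x; abel
    show Exact (fun x => W (τ1 t) i x + τ2 t • θ i x - w i x)
    rw [this]
    exact exact_add (h.exact _ i) (exact_smul (hθ i).2.2 _)
  · funext i x
    have e1 : τ1 1 = 1 := Real.smoothTransition.one_of_one_le (by norm_num)
    have e2 : τ2 1 = 1 := Real.smoothTransition.one_of_one_le (by norm_num)
    show W (τ1 1) i x + τ2 1 • θ i x = W 1 i x + θ i x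
    rw [e1, e2, one_smul]

/-- chains with a fixed form are deformations with a fixed form -/
theorem Fx.deformation {w v : Fin 3 → Form X 2} (hw : Hypersymplectic μ w) (h : Fx μ j w v) :
    ∃ W, Deformation μ w W ∧ W 1 = v ∧ ∀ t, W t j = w j := by
  induction h with
  | refl =>
    refine ⟨fun _ => w, ⟨fun i e he => ?_, fun _ _ => hw, rfl, fun _ i => exact_refl _⟩, rfl,
      fun _ => rfl⟩
    exact (hw.smooth i e he).comp contDiff_snd.contDiffOn (fun p hp => hp.2)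
  | @tail b c _ h2 ih =>
    obtain ⟨W, hW, h1, h3⟩ := ih
    obtain ⟨hk, hc, hj⟩ := h2
    obtain ⟨W', hW', h1', h4⟩ := append_fix hW (θ := fun i x => c i x - b i x)
      (fun i => ⟨smooth_sub (hk.hv.smooth i) (hk.hw.smooth i),
        closed_sub (hk.hv.smooth i) (hk.hw.smooth i) (hk.hv.closed i) (hk.hw.closed i),
        hc i⟩) (fun s hs x => by rw [h1]; exact hk.pos s hs x)
    refine ⟨W', hW', ?_, fun t => ?_⟩
    · rw [h1', h1]
      funext i x
      simp only [add_sub_cancel]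
    · obtain ⟨r, s, h5⟩ := h4 t
      rw [h5]
      funext x
      simp only [hj, h3, sub_self, smul_zero, add_zero]

end Vale.Agent.N247
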